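import Vale.Agent.P231.S2N.Tra

/-!
# P231, stage 3, S3-A: the inverse adjoint of the boundary operator on the negative spaces

`Wi i v ∈ L_v` is the vector with `⟨Wi i v, Th0 (XX X b) v⟩ = b i` for all `b` in the negative
space of `v`.
-/

set_option maxSynthPendingDepth 3
set_option linter.unusedSectionVars false
set_option linter.unusedVariables false

open Bundle Manifold Set Filter Module MeasureTheory
open scoped ContDiff Manifold Topology ENNReal

namespace Vale.Agent.P231.S3E2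

noncomputable section

open Vale.Agent.P234 Vale.Agent.P231 Vale.Agent.P231.Fm Vale.Agent.P231.W Vale.Agent.P231.WR
open Vale.Agent.P231.H775 Vale.Agent.P231.WC Vale.Agent.P231.WF Vale.Agent.P231.S2N

variable {E : Type*} [NormedAddCommGroup E] [NormedSpace ℝ E]
  {M : Type*} [MetricSpace M] [ChartedSpace E M]
  [RiemannianBundle (fun x : M => TangentSpace 𝓘(ℝ, E) x)]
  {e : ∀ x : M, TangentSpace 𝓘(ℝ, E) x → M}
  [FiniteDimensional ℝ E] [IsManifold 𝓘(ℝ, E) ∞ M]
  [IsContMDiffRiemannianBundle 𝓘(ℝ, E) ∞ E (fun x : M => TangentSpace 𝓘(ℝ, E) x)]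
  [CompactSpace M] [ConnectedSpace M] [IsRiemannianManifold 𝓘(ℝ, E) M]

variable {D : ℝ} {ι : Type} [Fintype ι] [DecidableEq ι]

/-- the coefficient vector of `Wi` -/
def wm (F : Facts e) (hD : 0 < D) (hB : InjGE e D) (hdiam : ∀ p q : M, dist p q ≤ D)
    (X δ : ι → UT E M → E) (ε : ℝ) (i : ι) (v : UT E M) : EuclideanSpace ℝ ι :=
  Pm F D X δ ε v (Ring.inverse (S2N.Gm F hD hB hdiam X δ ε v)
    (Pm F D X δ ε v (EuclideanSpace.single i (1 : ℝ))))

/-- the inverse adjoint of the boundary operator, on the coordinate vectors -/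
def Wi (F : Facts e) (hD : 0 < D) (hB : InjGE e D) (hdiam : ∀ p q : M, dist p q ≤ D)
    (X δ : ι → UT E M → E) (ε : ℝ) (i : ι) (v : UT E M) : E :=
  Th0 F hD hB hdiam (XX X (wm F hD hB hdiam X δ ε i v)) v

variable {F : Facts e} {hD : 0 < D} {hB : InjGE e D} {hdiam : ∀ p q : M, dist p q ≤ D}
  {l : ℕ} {X δ : ι → UT E M → E} {ε : ℝ}

/-- the coefficient vector is smooth -/
theorem sm_wm (hP : ∀ x y : M, dist x y = D → finrank ℝ (H775.Pl e D x y) = l + 1)
    (h : Fam F hD hB hdiam l X δ ε) (i : ι) {E' : Type} [NormedAddCommGroup E']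
    [NormedSpace ℝ E'] [FiniteDimensional ℝ E'] {u : E' → UT E M} {x : E'}
    (hu : (dUT E M).At u x) : Sm (fun s => wm F hD hB hdiam X δ ε i (u s)) x := by
  have hTh : ∀ i, Fld (Th0 F hD hB hdiam (X i)) := fun i =>
    fld_Th0 F hD hB hdiam hP (h.df i).fld
  have h1 := h.sm_Pm hu
  have h2 : Sm (fun s => Tm F hD hB hdiam X (u s)) x := by
    refine sm_finsum Finset.univ fun i => sm_finsum Finset.univ fun j => ?_
    refine sm_smul' ?_ (Sm.of_contDiff contDiff_const x)
    exact (hTh i).ip (hTh j) hu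
  filter_upwards [h1, h2] with s g1 g2
  have g4 : ContDiffAt ℝ ∞ (fun s => S2N.Gm F hD hB hdiam X δ ε (u s)) s :=
    ((g1.mul g2).mul g1).add (contDiffAt_const.sub g1)
  have g5 : ContDiffAt ℝ ∞ (fun s => Ring.inverse (S2N.Gm F hD hB hdiam X δ ε (u s))) s := by
    have hunit := h.isUnit_Gm hP (u s)
    have hV : CompleteSpace (EuclideanSpace ℝ ι) := inferInstance
    obtain ⟨a, ha⟩ := hunit
    have k := contDiffAt_ringInverse ℝ (n := ∞) a
    rw [ha] at k
    exact k.comp s g4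
  exact g1.clm_apply (g5.clm_apply (g1.clm_apply contDiffAt_const))

/-- **`Wi` is a smooth section of the kernel bundle** -/
theorem ls_Wi (hP : ∀ x y : M, dist x y = D → finrank ℝ (H775.Pl e D x y) = l + 1)
    (h : Fam F hD hB hdiam l X δ ε) (i : ι) : LS e D (Wi F hD hB hdiam X δ ε i) where
  fld := by
    have hTh : ∀ i, Fld (Th0 F hD hB hdiam (X i)) := fun i =>
      fld_Th0 F hD hB hdiam hP (h.df i).fld
    refine ⟨fun {E'} _ _ _ {u x} hu => ?_⟩
    have h3 := at_XX hTh hu (sm_wm hP h i hu)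
    have h4 : ((fun v : UT E M => tb (foot v) (Wi F hD hB hdiam X δ ε i v)) ∘ u) =
        fun s => tb (foot (u s)) (XX (fun i => Th0 F hD hB hdiam (X i))
          (wm F hD hB hdiam X δ ε i (u s)) (u s)) := by
      funext s
      refine tb_congr rfl ?_
      unfold Wi
      rw [Th0_XX]
      rfl
    rw [h4]
    exact h3
  mem v := (mem_Lf.1 (Th0_mem F hD hB hdiam _ v)).1
  orth v := (mem_Lf.1 (Th0_mem F hD hB hdiam _ v)).2

/-- **the defining property of `Wi`** -/
theorem ip_Wi (hP : ∀ x y : M, dist x y = D → finrank ℝ (H775.Pl e D x y) = l + 1)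
    (h : Fam F hD hB hdiam l X δ ε) (i : ι) (v : UT E M) {b : EuclideanSpace ℝ ι}
    (hb : Pm F D X δ ε v b = b) :
    ip (foot v) (Wi F hD hB hdiam X δ ε i v) (Th0 F hD hB hdiam (XX X b) v) = b i := by
  set P := Pm F D X δ ε v with hPd
  set T := Tm F hD hB hdiam X v with hT
  set x := Ring.inverse (S2N.Gm F hD hB hdiam X δ ε v) (P (EuclideanSpace.single i (1 : ℝ))) with hx
  have hG := h.isUnit_Gm hP v
  have h1 : S2N.Gm F hD hB hdiam X δ ε v x = P (EuclideanSpace.single i (1 : ℝ)) := by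
    have h2 : (S2N.Gm F hD hB hdiam X δ ε v * Ring.inverse (S2N.Gm F hD hB hdiam X δ ε v))
        (P (EuclideanSpace.single i (1 : ℝ))) = P (EuclideanSpace.single i (1 : ℝ)) := by
      rw [Ring.mul_inverse_cancel _ hG]
      rfl
    exact h2
  have h3 : P (T (P x)) + (x - P x) = P (EuclideanSpace.single i (1 : ℝ)) := h1
  have h4 : P (T (P x)) = P (EuclideanSpace.single i (1 : ℝ)) := by
    have k := congrArg P h3
    rw [map_add, map_sub, hPd, h.Pm_Pm v, h.Pm_Pm v, h.Pm_Pm v, sub_self, add_zero] at k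
    exact k
  unfold Wi wm
  rw [← hPd, ← hx, ← inner_Tm, ← hT]
  have h5 : inner ℝ (T (P x)) b = (inner ℝ (P (T (P x))) b : ℝ) := by
    rw [hPd, h.Pm_symm v, ← hPd, hb]
  rw [h5, h4, hPd, h.Pm_symm v, ← hPd, hb, EuclideanSpace.inner_single_left]
  simp

/-- the map `x ↦ ∑ x i • Wi i v` is injective on the negative space -/
theorem Wi_inj (hP : ∀ x y : M, dist x y = D → finrank ℝ (H775.Pl e D x y) = l + 1)
    (h : Fam F hD hB hdiam l X δ ε) (v : UT E M) {x : EuclideanSpace ℝ ι}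
    (hx : Pm F D X δ ε v x = x) (h0 : ∑ i, x i • Wi F hD hB hdiam X δ ε i v = 0) : x = 0 := by
  have h1 : ip (foot v) (∑ i, x i • Wi F hD hB hdiam X δ ε i v)
      (Th0 F hD hB hdiam (XX X x) v) = ∑ i, x i * x i := by
    rw [ip_sum_left]
    refine Finset.sum_congr rfl fun i _ => ?_
    rw [ip_smul_left', ip_Wi hP h i v hx]
  rw [h0] at h1
  have h2 : ip (foot v) (0 : E) (Th0 F hD hB hdiam (XX X x) v) = 0 :=
    inner_zero_left (E := TangentSpace 𝓘(ℝ, E) (foot v)) (𝕜 := ℝ) _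
  rw [h2] at h1
  have h3 : ‖x‖ ^ 2 = 0 := by
    rw [EuclideanSpace.norm_sq_eq, h1]
    refine Finset.sum_congr rfl fun i _ => ?_
    rw [Real.norm_eq_abs, sq_abs, sq]
  exact norm_eq_zero.1 (pow_eq_zero_iff (two_ne_zero) |>.1 h3)

end

end Vale.Agent.P231.S3E2
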