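import Vale.Agent.P231.S3E2.Sec
import Vale.Agent.P231.S2N.Tra

/-!
# P231, stage 3, S3-A: the static fields `Ph`: superpositions of the kernel Jacobi fields with
weights `cos (om r) x + sin (om r) y`
-/

set_option maxSynthPendingDepth 3
set_option linter.unusedSectionVars false
set_option linter.unusedVariables false

open Bundle Manifold Set Filter Module MeasureTheory
open scoped ContDiff Manifold Topology ENNReal

namespace Vale.Agent.P231.S3E2

noncomputable section

open Vale.Agent.P234 Vale.Agent.P231 Vale.Agent.P231.Fm Vale.Agent.P231.W Vale.Agent.P231.WR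
open Vale.Agent.P231.H775 Vale.Agent.P231.WC Vale.Agent.P231.S2N

variable {E : Type*} [NormedAddCommGroup E] [NormedSpace ℝ E]
  {M : Type*} [MetricSpace M] [ChartedSpace E M]
  [RiemannianBundle (fun x : M => TangentSpace 𝓘(ℝ, E) x)]
  {e : ∀ x : M, TangentSpace 𝓘(ℝ, E) x → M}
  [FiniteDimensional ℝ E] [IsManifold 𝓘(ℝ, E) ∞ M]
  [IsContMDiffRiemannianBundle 𝓘(ℝ, E) ∞ E (fun x : M => TangentSpace 𝓘(ℝ, E) x)]
  [CompactSpace M] [ConnectedSpace M] [IsRiemannianManifold 𝓘(ℝ, E) M]

/-- the superposition with the weight `c` -/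
def Yc (F : Facts e) (D : ℝ) (c : ℝ → ℝ) (W : UT E M → E) (v : UT E M) : E :=
  ∫ r in (0 : ℝ)..D, c r • Jc e (phi F (v, -r)) (W (phi F (v, -r))) r

/-- **the weighted superposition is smooth** -/
theorem fld_Yc (F : Facts e) (D : ℝ) {c : ℝ → ℝ} (hc : ContDiff ℝ ∞ c) {W : UT E M → E}
    (h : Fld W) : Fld (Yc F D c W) := by
  refine ⟨fun {E'} _ _ _ {U x} hU => ?_⟩
  have hf : ∀ᶠ s in 𝓝 x, ContMDiffAt 𝓘(ℝ, E') 𝓘(ℝ, E) ∞ (fun s => foot (U s)) s := map_foot hU
  have h1 := (dUT E M).open' hU
  have key : ∀ᶠ s in 𝓝 x, ContMDiffAt 𝓘(ℝ, E') 𝓘(ℝ, E).tangent ∞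
      (fun s => tb (foot (U s)) (Yc F D c W (U s))) s := by
    filter_upwards [eventually_eventually_nhds.2 hf, eventually_eventually_nhds.2 h1] with s h2 h3
    refine H583.smV_integral D h2 ?_
    filter_upwards [h3] with s' h4 r
    have h5 : SmV (fun p : E' × ℝ => foot (U p.1))
        (fun p => (JW e W (phi F (U p.1, -p.2)) p.2 : E)) (s', r) := at_integrand F h h4 r
    exact SmV.smul (c := fun p : E' × ℝ => c p.2) (hc.contDiffAt.comp _ contDiffAt_snd) h5
  exact key

theorem cont_Yc (F : Facts e) {c : ℝ → ℝ} (hc : Continuous c) {W : UT E M → E} (h : Fld W)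
    (v : UT E M) :
    Continuous (fun r : ℝ => c r • Jc e (phi F (v, -r)) (W (phi F (v, -r))) r) :=
  hc.smul (continuous_integrand F h v)

variable {D : ℝ} {ι : Type} [Fintype ι] [DecidableEq ι]

theorem Jc_sum {κ : Type*} (s : Finset κ) (u : UT E M) (a : κ → ℝ) (w : κ → E) (r : ℝ) :
    Jc e u (∑ i ∈ s, a i • w i) r = ∑ i ∈ s, a i • Jc e u (w i) r := by
  classical
  induction s using Finset.induction_on with
  | empty =>
    have h := Jc_smul (e := e) u 0 (0 : E) r
    simpa using h
  | insert i s hi ih =>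
    rw [Finset.sum_insert hi, Finset.sum_insert hi, Jc_add, Jc_smul, ih]

/-- **the static field** -/
def Ph (F : Facts e) (D : ℝ) (W : ι → UT E M → E) (om : ℝ) (u : UT E M)
    (x y : EuclideanSpace ℝ ι) : E :=
  ∫ r in (0 : ℝ)..D, Jc e (phi F (u, -r))
    (∑ i, (Real.cos (om * r) * x i + Real.sin (om * r) * y i) • W i (phi F (u, -r))) r

/-- the coefficient of `x i` -/
def Pc (F : Facts e) (D : ℝ) (W : ι → UT E M → E) (om : ℝ) (i : ι) : UT E M → E :=
  Yc F D (fun r => Real.cos (om * r)) (W i)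

/-- the coefficient of `y i` -/
def Ps (F : Facts e) (D : ℝ) (W : ι → UT E M → E) (om : ℝ) (i : ι) : UT E M → E :=
  Yc F D (fun r => Real.sin (om * r)) (W i)

variable {F : Facts e} {W : ι → UT E M → E} (om : ℝ)

theorem contDiff_cosom : ContDiff ℝ ∞ fun r : ℝ => Real.cos (om * r) :=
  Real.contDiff_cos.comp (contDiff_const.mul contDiff_id)

theorem contDiff_sinom : ContDiff ℝ ∞ fun r : ℝ => Real.sin (om * r) :=
  Real.contDiff_sin.comp (contDiff_const.mul contDiff_id)

theorem fld_Pc (hW : ∀ i, LS e D (W i)) (i : ι) : Fld (Pc F D W om i) :=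
  fld_Yc F D (contDiff_cosom om) (hW i).fld

theorem fld_Ps (hW : ∀ i, LS e D (W i)) (i : ι) : Fld (Ps F D W om i) :=
  fld_Yc F D (contDiff_sinom om) (hW i).fld

/-- the static field is a combination of smooth fields -/
theorem Ph_eq (hW : ∀ i, LS e D (W i)) (u : UT E M) (x y : EuclideanSpace ℝ ι) :
    Ph F D W om u x y = ∑ i, (x i • Pc F D W om i u + y i • Ps F D W om i u) := by
  have h1 : ∀ r : ℝ, Jc e (phi F (u, -r))
      (∑ i, (Real.cos (om * r) * x i + Real.sin (om * r) * y i) • W i (phi F (u, -r))) r =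
      ∑ i, (x i • (Real.cos (om * r) • Jc e (phi F (u, -r)) (W i (phi F (u, -r))) r) +
        y i • (Real.sin (om * r) • Jc e (phi F (u, -r)) (W i (phi F (u, -r))) r)) := by
    intro r
    rw [Jc_sum]
    refine Finset.sum_congr rfl fun i _ => ?_
    rw [add_smul, smul_smul, smul_smul, mul_comm (x i), mul_comm (y i)]
  have hc : ∀ i, IntervalIntegrable (fun r : ℝ => Real.cos (om * r) •
      Jc e (phi F (u, -r)) (W i (phi F (u, -r))) r) volume 0 D := fun i =>
    (cont_Yc F (contDiff_cosom om).continuous (hW i).fld u).intervalIntegrable _ _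
  have hs : ∀ i, IntervalIntegrable (fun r : ℝ => Real.sin (om * r) •
      Jc e (phi F (u, -r)) (W i (phi F (u, -r))) r) volume 0 D := fun i =>
    (cont_Yc F (contDiff_sinom om).continuous (hW i).fld u).intervalIntegrable _ _
  have e1 : Ph F D W om u x y = ∫ r in (0 : ℝ)..D, ∑ i,
      (x i • (Real.cos (om * r) • Jc e (phi F (u, -r)) (W i (phi F (u, -r))) r) +
        y i • (Real.sin (om * r) • Jc e (phi F (u, -r)) (W i (phi F (u, -r))) r)) :=
    intervalIntegral.integral_congr fun r _ => h1 r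
  have e2 := intervalIntegral.integral_finsetSum (μ := volume) (a := 0) (b := D)
    (s := (Finset.univ : Finset ι)) (f := fun i r =>
      x i • (Real.cos (om * r) • Jc e (phi F (u, -r)) (W i (phi F (u, -r))) r) +
        y i • (Real.sin (om * r) • Jc e (phi F (u, -r)) (W i (phi F (u, -r))) r))
    fun i _ => ((hc i).smul (x i)).add ((hs i).smul (y i))
  rw [e1]
  refine e2.trans (Finset.sum_congr rfl fun i _ => ?_)
  refine (intervalIntegral.integral_add ((hc i).smul (x i)) ((hs i).smul (y i))).trans ?_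
  rw [Pi.smul_def, Pi.smul_def, intervalIntegral.integral_smul, intervalIntegral.integral_smul]
  rfl

/-- the static field is smooth -/
theorem at_Ph (hW : ∀ i, LS e D (W i)) {E' : Type} [NormedAddCommGroup E'] [NormedSpace ℝ E']
    [FiniteDimensional ℝ E'] {u : E' → UT E M} {x y : E' → EuclideanSpace ℝ ι} {s : E'}
    (hu : (dUT E M).At u s) (hx : Sm x s) (hy : Sm y s) :
    (dTM E M).At (fun s => tb (foot (u s)) (Ph F D W om (u s) (x s) (y s))) s := by
  have h1 : (dTM E M).At (fun s => tb (foot (u s)) (∑ i, (x s i • Pc F D W om i (u s) +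
      y s i • Ps F D W om i (u s)))) s :=
    at_sum' Finset.univ (f := fun s => foot (u s)) (at_zero hu) fun i =>
      at_add (at_smul (f := fun s => foot (u s)) (sm_coord hx i) ((fld_Pc om hW i).map hu))
        (at_smul (f := fun s => foot (u s)) (sm_coord hy i) ((fld_Ps om hW i).map hu))
  have h2 : (fun s => tb (foot (u s)) (Ph F D W om (u s) (x s) (y s))) =
      fun s => tb (foot (u s)) (∑ i, (x s i • Pc F D W om i (u s) +
        y s i • Ps F D W om i (u s))) := by
    funext s
    exact tb_congr rfl (Ph_eq om hW _ _ _)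
  rw [h2]
  exact h1

theorem Ph_add (hW : ∀ i, LS e D (W i)) (u : UT E M) (x y x' y' : EuclideanSpace ℝ ι) :
    Ph F D W om u (x + x') (y + y') = Ph F D W om u x y + Ph F D W om u x' y' := by
  rw [Ph_eq om hW, Ph_eq om hW, Ph_eq om hW, ← Finset.sum_add_distrib]
  refine Finset.sum_congr rfl fun i _ => ?_
  rw [PiLp.add_apply, PiLp.add_apply, add_smul, add_smul]
  abel

theorem Ph_smul (hW : ∀ i, LS e D (W i)) (u : UT E M) (c : ℝ) (x y : EuclideanSpace ℝ ι) :
    Ph F D W om u (c • x) (c • y) = c • Ph F D W om u x y := by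
  rw [Ph_eq om hW, Ph_eq om hW, Finset.smul_sum]
  refine Finset.sum_congr rfl fun i _ => ?_
  rw [PiLp.smul_apply, PiLp.smul_apply, smul_eq_mul, smul_eq_mul, smul_add, smul_smul, smul_smul]

theorem Ph_zero (hW : ∀ i, LS e D (W i)) (u : UT E M) : Ph F D W om u 0 0 = 0 := by
  have h := Ph_smul (F := F) om hW u 0 0 0
  rwa [zero_smul, zero_smul] at h

/-- **the static field along the flow** -/
theorem Ph_flow (v : UT E M) (t : ℝ) (x y : EuclideanSpace ℝ ι) :
    Ph F D W om (phi F (v, t)) (Real.cos (om * t) • x - Real.sin (om * t) • y)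
      (Real.sin (om * t) • x + Real.cos (om * t) • y) =
    zF F D v (fun s => ∑ i, (Real.cos (om * s) * x i - Real.sin (om * s) * y i) •
      W i (phi F (v, s))) t := by
  unfold Ph zF
  refine intervalIntegral.integral_congr fun r _ => ?_
  simp only [phi_add]
  have h1 : t + -r = t - r := by ring
  rw [h1]
  congr 1
  refine Finset.sum_congr rfl fun i _ => ?_
  congr 1
  have e1 : om * (t - r) = om * t - om * r := by ring
  rw [e1, Real.cos_sub, Real.sin_sub, PiLp.sub_apply, PiLp.add_apply, PiLp.smul_apply,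
    PiLp.smul_apply, PiLp.smul_apply, PiLp.smul_apply, smul_eq_mul, smul_eq_mul, smul_eq_mul,
    smul_eq_mul]
  ring

theorem Ph_zF (u : UT E M) (x y : EuclideanSpace ℝ ι) :
    Ph F D W om u x y = zF F D u (fun s => ∑ i, (Real.cos (om * s) * x i -
      Real.sin (om * s) * y i) • W i (phi F (u, s))) 0 := by
  have h := Ph_flow (F := F) (D := D) (W := W) om u 0 x y
  rw [phi_zero, mul_zero, Real.cos_zero, Real.sin_zero, one_smul, zero_smul, sub_zero, zero_smul,
    zero_add, one_smul] at h
  exact h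

/-- the density of the static field along the geodesic -/
theorem sc_dens (hW : ∀ i, LS e D (W i)) (v : UT E M) (x y : EuclideanSpace ℝ ι) :
    Sc F D v (fun s => ∑ i, (Real.cos (om * s) * x i - Real.sin (om * s) * y i) •
      W i (phi F (v, s))) :=
  Sc.sum Finset.univ (U := fun i s => (Real.cos (om * s) * x i - Real.sin (om * s) * y i) •
      W i (phi F (v, s))) fun i =>
    (Sc.of_LS (hW i) v).smul (((contDiff_cosom om).mul contDiff_const).sub
      ((contDiff_sinom om).mul contDiff_const))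

/-- the static field is orthogonal to the direction -/
theorem perp_Ph (hW : ∀ i, LS e D (W i)) (u : UT E M) (x y : EuclideanSpace ℝ ι) :
    ip (foot u) (vec' u) (Ph F D W om u x y) = 0 := by
  have h := perp_zF (sc_dens (F := F) om hW u x y) 0
  rw [← Ph_zF, phi_zero, gm_zero F] at h
  exact h

end

end Vale.Agent.P231.S3E2
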