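import Vale.Agent.P231.S3E2.PhF
import Vale.Agent.P231.S3E2.Inv
import Vale.Agent.P231.S3E2.Stat

/-!
# P231, stage 3, S3-A: the fields in the directions of `E'`, final statement
-/

set_option maxSynthPendingDepth 3
set_option linter.unusedSectionVars false
set_option linter.unusedVariables false

open Bundle Manifold Set Filter Module MeasureTheory
open scoped ContDiff Manifold Topology

namespace Vale.Agent.P231.S3E2

noncomputable section

open Vale.Agent.P234 Vale.Agent.P231 Vale.Agent.P231.Fm Vale.Agent.P231.W Vale.Agent.P231.WR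
open Vale.Agent.P231.H775 Vale.Agent.P231.WC Vale.Agent.P231.S2N Vale.Agent.P231.WF

variable {E : Type*} [NormedAddCommGroup E] [NormedSpace ℝ E]
  {M : Type*} [MetricSpace M] [ChartedSpace E M]
  [RiemannianBundle (fun x : M => TangentSpace 𝓘(ℝ, E) x)]
  {e : ∀ x : M, TangentSpace 𝓘(ℝ, E) x → M}
  [FiniteDimensional ℝ E] [IsManifold 𝓘(ℝ, E) ∞ M]
  [IsContMDiffRiemannianBundle 𝓘(ℝ, E) ∞ E (fun x : M => TangentSpace 𝓘(ℝ, E) x)]
  [CompactSpace M] [ConnectedSpace M] [IsRiemannianManifold 𝓘(ℝ, E) M]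

variable {D : ℝ} {F : Facts e} {ι : Type} [Fintype ι] [DecidableEq ι]
  {hD : 0 < D} {hB : InjGE e D} {hdiam : ∀ p q : M, dist p q ≤ D} {l : ℕ}
  {X δ : ι → UT E M → E} {ε : ℝ}

theorem isW_Wi (hP : ∀ x y : M, dist x y = D → finrank ℝ (H775.Pl e D x y) = l + 1)
    (h : Fam F hD hB hdiam l X δ ε) :
    IsW F hD hB hdiam X δ ε (Wi F hD hB hdiam X δ ε) where
  ls := ls_Wi hP h
  ip_eq v _ i hb := ip_Wi hP h i v hb

/-- the combinations of the static fields along the flow -/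
theorem XX_flow {W : ι → UT E M → E} (hW : ∀ i, LS e D (W i)) (v : UT E M)
    (x y : EuclideanSpace ℝ ι) (t : ℝ) :
    XX (Pc F D W (Real.pi / (2 * D))) (Real.cos (Real.pi / (2 * D) * t) • x -
        Real.sin (Real.pi / (2 * D) * t) • y) (phi F (v, t)) +
      XX (Ps F D W (Real.pi / (2 * D))) (Real.sin (Real.pi / (2 * D) * t) • x +
        Real.cos (Real.pi / (2 * D) * t) • y) (phi F (v, t)) =
      zF F D v (Uz F D W v x y) t := by
  have h1 := Ph_flow (F := F) (D := D) (W := W) (Real.pi / (2 * D)) v t x y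
  rw [Ph_eq _ hW, Finset.sum_add_distrib] at h1
  exact h1

/-- **S3-A**: for every family there are the fields in the directions of `E'` -/
theorem exists_phF_fam
    (hP : ∀ x y : M, dist x y = D → finrank ℝ (H775.Pl e D x y) = l + 1)
    (h : Fam F hD hB hdiam l X δ ε) :
    ∃ ε₁, S3Y.PhF F D X δ ε (Pc F D (Wi F hD hB hdiam X δ ε) (Real.pi / (2 * D)))
      (Ps F D (Wi F hD hB hdiam X δ ε) (Real.pi / (2 * D))) ε₁ :=
  exists_phF hP h (isW_Wi hP h) (fld_Pc _ (ls_Wi hP h)) (fld_Ps _ (ls_Wi hP h))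
    (XX_flow (ls_Wi hP h))

/-- the quadratic form of the bound -/
theorem exists_energy_fam
    (hP : ∀ x y : M, dist x y = D → finrank ℝ (H775.Pl e D x y) = l + 1)
    (h : Fam F hD hB hdiam l X δ ε) :
    ∃ ε₀ c : ℝ, 0 < ε₀ ∧ 0 < c ∧ ∀ (v : UT E M) (w : WW ι), Pm F D X δ ε v w.1 = w.1 →
      Pm F D X δ ε v w.2.1 = w.2.1 → Pm F D X δ ε v w.2.2 = w.2.2 → ‖w‖ ≤ ε₀ →
      enC F D X (Pc F D (Wi F hD hB hdiam X δ ε) (Real.pi / (2 * D)))
        (Ps F D (Wi F hD hB hdiam X δ ε) (Real.pi / (2 * D))) v w ≤ 4 * D - c * ‖w‖ ^ 2 :=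
  exists_energy hP h (isW_Wi hP h) (fld_Pc _ (ls_Wi hP h)) (fld_Ps _ (ls_Wi hP h))
    (XX_flow (ls_Wi hP h))

end

end Vale.Agent.P231.S3E2
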