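import Mathlib

/-!
# P231, stage 3, S3-A: a Fourier inequality

If `H` is smooth on `[0, π/2]`, vanishes at both ends, has positive slope at `0` and nonpositive
Fourier coefficients with respect to `cos (m x)`, `m = 3, 5, 7, ...`, its integral is positive.
-/

set_option linter.unusedSectionVars false
set_option linter.unusedVariables false

open Set Filter MeasureTheory
open scoped ContDiff Topology

namespace Vale.Agent.P231.S3E2

noncomputable section

theorem hs_congr {f g : ℕ → ℝ} {a b : ℝ} (h : HasSum f a) (hfg : ∀ n, f n = g n) (hab : a = b) :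
    HasSum g b := by
  have : f = g := funext hfg
  rwa [← this, ← hab]

/-- the odd part of a convergent series -/
theorem hasSum_odd {f : ℕ → ℝ} {a b : ℝ} (hf : HasSum f a) (he : HasSum (fun k => f (2 * k)) b) :
    HasSum (fun k => f (2 * k + 1)) (a - b) := by
  have h1 : Summable fun k => f (2 * k + 1) :=
    hf.summable.comp_injective (i := fun k : ℕ => 2 * k + 1) fun x y h => by simpa using h
  obtain ⟨s, hs⟩ := h1
  have h2 := he.even_add_odd hs
  have h3 := h2.unique hf
  have h4 : s = a - b := by linarith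
  rwa [← h4]

theorem cos_odd {y : ℝ} (h0 : 0 ≤ y) (h1 : y ≤ Real.pi) :
    HasSum (fun j : ℕ => 1 / (2 * (j : ℝ) + 1) ^ 2 * Real.cos ((2 * j + 1) * y))
      (Real.pi ^ 2 / 8 - Real.pi * y / 4) := by
  have hpi := Real.pi_pos
  have hpi' : Real.pi ≠ 0 := hpi.ne'
  have e1 := hasSum_one_div_nat_pow_mul_cos (k := 1) one_ne_zero (x := y / (2 * Real.pi))
    ⟨by positivity, by rw [div_le_one (by positivity)]; linarith⟩
  have e2 := hasSum_one_div_nat_pow_mul_cos (k := 1) one_ne_zero (x := y / Real.pi)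
    ⟨by positivity, by rw [div_le_one (by positivity)]; linarith⟩
  have hb : ∀ x : ℝ, (Polynomial.map (algebraMap ℚ ℝ) (Polynomial.bernoulli (2 * 1))).eval x =
      x ^ 2 - x + 6⁻¹ := fun x => bernoulliFun_two x
  rw [hb] at e1 e2
  have e3 : HasSum (fun n : ℕ => 1 / (n : ℝ) ^ 2 * Real.cos (n * y))
      (Real.pi ^ 2 * ((y / (2 * Real.pi)) ^ 2 - y / (2 * Real.pi) + 6⁻¹)) := by
    refine hs_congr e1 (fun n => ?_) ?_
    · have k : 2 * Real.pi * n * (y / (2 * Real.pi)) = (n : ℝ) * y := by field_simp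
      rw [k]
    · have : ((2 * 1).factorial : ℝ) = 2 := by norm_num [Nat.factorial]
      rw [this]
      ring
  have e4 : HasSum (fun n : ℕ => 1 / ((2 * n : ℕ) : ℝ) ^ 2 * Real.cos ((2 * n : ℕ) * y))
      (1 / 4 * (Real.pi ^ 2 * ((y / Real.pi) ^ 2 - y / Real.pi + 6⁻¹))) := by
    refine hs_congr (e2.mul_left (1 / 4 : ℝ)) (fun n => ?_) ?_
    · have k : 2 * Real.pi * n * (y / Real.pi) = ((2 * n : ℕ) : ℝ) * y := by
        push_cast
        field_simp
      rw [k]
      push_cast
      rw [mul_pow, one_div, one_div, one_div, mul_inv]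
      ring
    · have : ((2 * 1).factorial : ℝ) = 2 := by norm_num [Nat.factorial]
      rw [this]
      ring
  refine hs_congr (hasSum_odd e3 e4) (fun j => ?_) ?_
  · push_cast
    rfl
  · field_simp
    ring

theorem bern_three (x : ℝ) :
    (Polynomial.map (algebraMap ℚ ℝ) (Polynomial.bernoulli (2 * 1 + 1))).eval x =
      x ^ 3 - 3 / 2 * x ^ 2 + x / 2 := by
  have h1 : bernoulli' 3 = 0 := by norm_num
  have h2 : bernoulli 3 = 0 := by
    rw [bernoulli_eq_bernoulli'_of_ne_one (by norm_num), h1]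
  simp [Polynomial.bernoulli_def, Finset.sum_range_succ, bernoulli_two, bernoulli_one, h2,
    Nat.choose]
  ring

theorem sin_odd {y : ℝ} (h0 : 0 ≤ y) (h1 : y ≤ Real.pi) :
    HasSum (fun j : ℕ => 1 / (2 * (j : ℝ) + 1) ^ 3 * Real.sin ((2 * j + 1) * y))
      (Real.pi * y * (Real.pi - y) / 8) := by
  have hpi := Real.pi_pos
  have hpi' : Real.pi ≠ 0 := hpi.ne'
  have e1 := hasSum_one_div_nat_pow_mul_sin (k := 1) one_ne_zero (x := y / (2 * Real.pi))
    ⟨by positivity, by rw [div_le_one (by positivity)]; linarith⟩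
  have e2 := hasSum_one_div_nat_pow_mul_sin (k := 1) one_ne_zero (x := y / Real.pi)
    ⟨by positivity, by rw [div_le_one (by positivity)]; linarith⟩
  rw [bern_three] at e1 e2
  have e3 : HasSum (fun n : ℕ => 1 / (n : ℝ) ^ 3 * Real.sin (n * y))
      (2 * Real.pi ^ 3 / 3 * ((y / (2 * Real.pi)) ^ 3 - 3 / 2 * (y / (2 * Real.pi)) ^ 2 +
        (y / (2 * Real.pi)) / 2)) := by
    refine hs_congr e1 (fun n => ?_) ?_
    · have k : 2 * Real.pi * n * (y / (2 * Real.pi)) = (n : ℝ) * y := by field_simp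
      rw [k]
    · have : ((2 * 1 + 1).factorial : ℝ) = 6 := by norm_num [Nat.factorial]
      rw [this]
      ring
  have e4 : HasSum (fun n : ℕ => 1 / ((2 * n : ℕ) : ℝ) ^ 3 * Real.sin ((2 * n : ℕ) * y))
      (1 / 8 * (2 * Real.pi ^ 3 / 3 * ((y / Real.pi) ^ 3 - 3 / 2 * (y / Real.pi) ^ 2 +
        (y / Real.pi) / 2))) := by
    refine hs_congr (e2.mul_left (1 / 8 : ℝ)) (fun n => ?_) ?_
    · have k : 2 * Real.pi * n * (y / Real.pi) = ((2 * n : ℕ) : ℝ) * y := by
        push_cast
        field_simp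
      rw [k]
      push_cast
      rw [mul_pow, one_div, one_div, one_div, mul_inv]
      ring
    · have : ((2 * 1 + 1).factorial : ℝ) = 6 := by norm_num [Nat.factorial]
      rw [this]
      ring
  refine hs_congr (hasSum_odd e3 e4) (fun j => ?_) ?_
  · push_cast
    rfl
  · field_simp
    ring

/-- the weights `1 - (-1)^j / (2 j + 1)` -/
def wt (j : ℕ) : ℝ := 1 - (-1) ^ j / (2 * j + 1)

theorem wt_zero : wt 0 = 0 := by simp [wt]

theorem wt_pos {j : ℕ} (hj : j ≠ 0) : 0 < wt j := by
  unfold wt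
  have h1 : (1 : ℝ) ≤ j := by exact_mod_cast Nat.one_le_iff_ne_zero.2 hj
  have h2 : ((-1 : ℝ)) ^ j ≤ 1 := by
    rcases neg_one_pow_eq_or ℝ j with h | h
    · rw [h]
    · rw [h]
      norm_num
  have h3 : ((-1 : ℝ)) ^ j / (2 * j + 1) ≤ 1 / (2 * j + 1) := by gcongr
  have h4 : 1 / (2 * (j : ℝ) + 1) < 1 := by
    rw [div_lt_one (by positivity)]
    linarith
  linarith

theorem wt_nonneg (j : ℕ) : 0 ≤ wt j := by
  rcases eq_or_ne j 0 with h | h
  · rw [h, wt_zero]
  · exact (wt_pos h).le

/-- the kernel -/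
def Q (x : ℝ) : ℝ := Real.pi ^ 2 / 8 - Real.pi * x / 4 - (Real.pi ^ 3 / 32 - Real.pi * x ^ 2 / 8)

theorem cos_odd_sub (j : ℕ) (x : ℝ) :
    Real.sin ((2 * j + 1) * (Real.pi / 2 - x)) = (-1) ^ j * Real.cos ((2 * j + 1) * x) := by
  have h1 : (2 * (j : ℝ) + 1) * (Real.pi / 2 - x) =
      Real.pi / 2 - ((2 * j + 1) * x - j * Real.pi) := by ring
  rw [h1, Real.sin_pi_div_two_sub]
  exact Real.cos_sub_nat_mul_pi _ j

theorem hasSum_Q {x : ℝ} (h0 : 0 ≤ x) (h1 : x ≤ Real.pi / 2) :
    HasSum (fun j : ℕ => wt j / (2 * (j : ℝ) + 1) ^ 2 * Real.cos ((2 * j + 1) * x)) (Q x) := by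
  have hpi := Real.pi_pos
  have e1 := cos_odd h0 (by linarith)
  have e2 := sin_odd (y := Real.pi / 2 - x) (by linarith) (by linarith)
  refine hs_congr (e1.sub e2) (fun j => ?_) ?_
  · rw [cos_odd_sub]
    unfold wt
    have : (2 * (j : ℝ) + 1) ≠ 0 := by positivity
    field_simp
  · unfold Q
    ring

theorem hasSum_Q0 : HasSum (fun j : ℕ => wt j / (2 * (j : ℝ) + 1) ^ 2) (Q 0) := by
  have h := hasSum_Q (x := 0) le_rfl (by positivity)
  refine hs_congr h (fun j => ?_) rfl
  rw [mul_zero, Real.cos_zero, mul_one]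

theorem hasDerivAt_Q (x : ℝ) : HasDerivAt Q (-(Real.pi / 4) + Real.pi * x / 4) x := by
  have h1 : HasDerivAt (fun x : ℝ => x ^ 2) (2 * x) x := by simpa using hasDerivAt_pow 2 x
  have h2 : HasDerivAt (fun x : ℝ => Real.pi ^ 2 / 8 - Real.pi * x / 4) (-(Real.pi * 1 / 4)) x :=
    (((hasDerivAt_id x).const_mul Real.pi).div_const 4).const_sub _
  have h3 : HasDerivAt (fun x : ℝ => Real.pi ^ 3 / 32 - Real.pi * x ^ 2 / 8)
      (-(Real.pi * (2 * x) / 8)) x := ((h1.const_mul Real.pi).div_const 8).const_sub _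
  have h4 := h2.sub h3
  have e : -(Real.pi / 4) + Real.pi * x / 4 = -(Real.pi * 1 / 4) - -(Real.pi * (2 * x) / 8) := by
    ring
  rw [e]
  exact h4

theorem cos_odd_end (j : ℕ) : Real.cos ((2 * j + 1) * (Real.pi / 2)) = 0 := by
  have h := cos_odd_sub j (Real.pi / 2)
  rw [sub_self, mul_zero, Real.sin_zero] at h
  have h1 : ((-1 : ℝ)) ^ j ≠ 0 := pow_ne_zero _ (by norm_num)
  exact (mul_eq_zero.1 h.symm).resolve_left h1

theorem hasDerivAt_sin_mul (m x : ℝ) :
    HasDerivAt (fun x : ℝ => Real.sin (m * x)) (Real.cos (m * x) * m) x := by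
  have h := ((hasDerivAt_id x).const_mul m).sin
  rw [mul_one] at h
  exact h

theorem hasDerivAt_cos_mul (m x : ℝ) :
    HasDerivAt (fun x : ℝ => Real.cos (m * x)) (-Real.sin (m * x) * m) x := by
  have h := ((hasDerivAt_id x).const_mul m).cos
  rw [mul_one] at h
  exact h

/-- the Fourier coefficients of `H` and of its second derivative -/
theorem coeff_two {H : ℝ → ℝ} (hH : ContDiff ℝ ∞ H) (h0 : H 0 = 0) (h1 : H (Real.pi / 2) = 0)
    (j : ℕ) :
    (2 * (j : ℝ) + 1) ^ 2 * ∫ x in (0 : ℝ)..(Real.pi / 2), Real.cos ((2 * j + 1) * x) * H x =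
      -(deriv H 0 + ∫ x in (0 : ℝ)..(Real.pi / 2),
        Real.cos ((2 * j + 1) * x) * deriv (deriv H) x) := by
  set m : ℝ := 2 * j + 1 with hm
  have hm0 : m ≠ 0 := by rw [hm]; positivity
  have hH1 : ContDiff ℝ ∞ (deriv H) := (contDiff_infty_iff_deriv.1 hH).2
  have hH2 : ContDiff ℝ ∞ (deriv (deriv H)) := (contDiff_infty_iff_deriv.1 hH1).2
  have hd : ∀ x, HasDerivAt H (deriv H x) x := fun x => (hH.differentiable (by simp) x).hasDerivAt
  have hd1 : ∀ x, HasDerivAt (deriv H) (deriv (deriv H) x) x := fun x =>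
    (hH1.differentiable (by simp) x).hasDerivAt
  have hs : ∀ x, HasDerivAt (fun x : ℝ => Real.sin (m * x)) (Real.cos (m * x) * m) x := fun x =>
    hasDerivAt_sin_mul m x
  have hc : ∀ x, HasDerivAt (fun x : ℝ => Real.cos (m * x)) (-Real.sin (m * x) * m) x := fun x =>
    hasDerivAt_cos_mul m x
  have hcc : Continuous fun x : ℝ => Real.cos (m * x) := by fun_prop
  have hsc : Continuous fun x : ℝ => Real.sin (m * x) := by fun_prop
  have c1 : Continuous fun x => m ^ 2 * (Real.cos (m * x) * H x) :=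
    continuous_const.mul (hcc.mul hH.continuous)
  have c2 : Continuous fun x => Real.cos (m * x) * deriv (deriv H) x := hcc.mul hH2.continuous
  have i1 := intervalIntegral.integral_eq_sub_of_hasDerivAt (a := 0) (b := Real.pi / 2)
    (f := fun x => Real.sin (m * x) * H x * m + Real.cos (m * x) * deriv H x)
    (f' := fun x => m ^ 2 * (Real.cos (m * x) * H x) + Real.cos (m * x) * deriv (deriv H) x)
    (fun x _ => by
      have k := ((hs x).mul (hd x)).mul_const m
      have k2 := (hc x).mul (hd1 x)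
      have k3 := k.add k2
      have e : m ^ 2 * (Real.cos (m * x) * H x) + Real.cos (m * x) * deriv (deriv H) x =
          (Real.cos (m * x) * m * H x + Real.sin (m * x) * deriv H x) * m +
          (-Real.sin (m * x) * m * deriv H x + Real.cos (m * x) * deriv (deriv H) x) := by ring
      rw [e]
      exact k3)
    ((c1.add c2).intervalIntegrable _ _)
  rw [intervalIntegral.integral_add (c1.intervalIntegrable _ _) (c2.intervalIntegrable _ _),
    intervalIntegral.integral_const_mul] at i1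
  have e1 : Real.cos (m * (Real.pi / 2)) = 0 := cos_odd_end j
  simp only [h0, h1, e1, mul_zero, zero_mul, Real.cos_zero, Real.sin_zero, one_mul, zero_add,
    add_zero, zero_sub] at i1
  linarith

/-- the Fourier coefficients of a smooth function tend to zero -/
theorem coeff_le {G : ℝ → ℝ} (hG : ContDiff ℝ ∞ G) : ∃ C : ℝ, ∀ j : ℕ,
    |∫ x in (0 : ℝ)..(Real.pi / 2), Real.cos ((2 * j + 1) * x) * G x| ≤ C / (2 * j + 1) := by
  have hG1 : ContDiff ℝ ∞ (deriv G) := (contDiff_infty_iff_deriv.1 hG).2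
  obtain ⟨C, hC⟩ := (isCompact_Icc (a := (0 : ℝ)) (b := Real.pi / 2)).exists_bound_of_continuousOn
    hG1.continuous.continuousOn
  have hC0 : 0 ≤ C := (norm_nonneg _).trans (hC 0 ⟨le_rfl, by positivity⟩)
  refine ⟨|G (Real.pi / 2)| + C * (Real.pi / 2), fun j => ?_⟩
  set m : ℝ := 2 * j + 1 with hm
  have hm0 : 0 < m := by rw [hm]; positivity
  have hd : ∀ x, HasDerivAt G (deriv G x) x := fun x => (hG.differentiable (by simp) x).hasDerivAt
  have hs : ∀ x, HasDerivAt (fun x : ℝ => Real.sin (m * x)) (Real.cos (m * x) * m) x := fun x =>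
    hasDerivAt_sin_mul m x
  have hcc : Continuous fun x : ℝ => Real.cos (m * x) := by fun_prop
  have hsc : Continuous fun x : ℝ => Real.sin (m * x) := by fun_prop
  have c1 : Continuous fun x => m * (Real.cos (m * x) * G x) :=
    continuous_const.mul (hcc.mul hG.continuous)
  have c2 : Continuous fun x => Real.sin (m * x) * deriv G x := hsc.mul hG1.continuous
  have i1 := intervalIntegral.integral_eq_sub_of_hasDerivAt (a := 0) (b := Real.pi / 2)
    (f := fun x => Real.sin (m * x) * G x)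
    (f' := fun x => m * (Real.cos (m * x) * G x) + Real.sin (m * x) * deriv G x)
    (fun x _ => by
      have k := (hs x).mul (hd x)
      have e : m * (Real.cos (m * x) * G x) + Real.sin (m * x) * deriv G x =
          Real.cos (m * x) * m * G x + Real.sin (m * x) * deriv G x := by ring
      rw [e]
      exact k)
    ((c1.add c2).intervalIntegrable _ _)
  rw [intervalIntegral.integral_add (c1.intervalIntegrable _ _) (c2.intervalIntegrable _ _),
    intervalIntegral.integral_const_mul] at i1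
  simp only [mul_zero, zero_mul, Real.sin_zero, sub_zero] at i1
  have h2 : |∫ x in (0 : ℝ)..(Real.pi / 2), Real.sin (m * x) * deriv G x| ≤ C * (Real.pi / 2) := by
    have := intervalIntegral.norm_integral_le_of_norm_le_const (a := 0) (b := Real.pi / 2)
      (f := fun x => Real.sin (m * x) * deriv G x) (C := C) (fun x hx => by
        rw [uIoc_of_le (by positivity)] at hx
        rw [norm_mul]
        have k1 : ‖Real.sin (m * x)‖ ≤ 1 := Real.abs_sin_le_one _
        have k2 := hC x ⟨hx.1.le, hx.2⟩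
        calc ‖Real.sin (m * x)‖ * ‖deriv G x‖ ≤ 1 * C := by gcongr
          _ = C := one_mul C)
    rw [sub_zero, abs_of_pos (by positivity : (0 : ℝ) < Real.pi / 2)] at this
    exact this
  have h3 : m * ∫ x in (0 : ℝ)..(Real.pi / 2), Real.cos (m * x) * G x =
      Real.sin (m * (Real.pi / 2)) * G (Real.pi / 2) -
        ∫ x in (0 : ℝ)..(Real.pi / 2), Real.sin (m * x) * deriv G x := by linarith
  have h4 : m * |∫ x in (0 : ℝ)..(Real.pi / 2), Real.cos (m * x) * G x| ≤
      |G (Real.pi / 2)| + C * (Real.pi / 2) := by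
    rw [← abs_of_pos hm0, ← abs_mul, abs_of_pos hm0, h3]
    refine (abs_sub _ _).trans ?_
    refine add_le_add ?_ h2
    rw [abs_mul]
    have k1 : |Real.sin (m * (Real.pi / 2))| ≤ 1 := Real.abs_sin_le_one _
    calc |Real.sin (m * (Real.pi / 2))| * |G (Real.pi / 2)| ≤ 1 * |G (Real.pi / 2)| := by gcongr
      _ = |G (Real.pi / 2)| := one_mul _
  rw [le_div_iff₀ hm0, mul_comm]
  exact h4

/-- **the Fourier inequality** -/
theorem four_pos {H : ℝ → ℝ} (hH : ContDiff ℝ ∞ H) (h0 : H 0 = 0) (h1 : H (Real.pi / 2) = 0)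
    (hd : 0 < deriv H 0) (hm : ∀ j : ℕ, j ≠ 0 →
      ∫ x in (0 : ℝ)..(Real.pi / 2), Real.cos ((2 * j + 1) * x) * H x ≤ 0) :
    0 < ∫ x in (0 : ℝ)..(Real.pi / 2), H x := by
  have hpi := Real.pi_pos
  have hH1 : ContDiff ℝ ∞ (deriv H) := (contDiff_infty_iff_deriv.1 hH).2
  have hH2 : ContDiff ℝ ∞ (deriv (deriv H)) := (contDiff_infty_iff_deriv.1 hH1).2
  set A : ℕ → ℝ := fun j => ∫ x in (0 : ℝ)..(Real.pi / 2), Real.cos ((2 * j + 1) * x) * H x with hA
  set B : ℕ → ℝ := fun j => ∫ x in (0 : ℝ)..(Real.pi / 2),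
    Real.cos ((2 * j + 1) * x) * deriv (deriv H) x with hB
  have hAB : ∀ j : ℕ, (2 * (j : ℝ) + 1) ^ 2 * A j = -(deriv H 0 + B j) := fun j =>
    coeff_two hH h0 h1 j
  obtain ⟨C, hC⟩ := (isCompact_Icc (a := (0 : ℝ)) (b := Real.pi / 2)).exists_bound_of_continuousOn
    hH2.continuous.continuousOn
  have hC0 : 0 ≤ C := (norm_nonneg _).trans (hC 0 ⟨le_rfl, by positivity⟩)
  -- the integral of the kernel against the second derivative
  have hsB : HasSum (fun j : ℕ => wt j / (2 * (j : ℝ) + 1) ^ 2 * B j)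
      (∫ x in (0 : ℝ)..(Real.pi / 2), Q x * deriv (deriv H) x) := by
    have key := intervalIntegral.hasSum_integral_of_dominated_convergence (a := (0 : ℝ))
      (b := Real.pi / 2) (μ := volume)
      (F := fun (j : ℕ) (x : ℝ) => wt j / (2 * (j : ℝ) + 1) ^ 2 * Real.cos ((2 * j + 1) * x) *
        deriv (deriv H) x) (f := fun x => Q x * deriv (deriv H) x)
      (fun j x => wt j / (2 * (j : ℝ) + 1) ^ 2 * C) ?_ ?_ ?_ ?_ ?_
    · refine hs_congr key (fun j => ?_) rfl
      rw [hB]
      simp only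
      rw [← intervalIntegral.integral_const_mul]
      refine intervalIntegral.integral_congr fun x _ => ?_
      exact mul_assoc _ _ _
    · intro j
      have : Continuous fun x : ℝ => wt j / (2 * (j : ℝ) + 1) ^ 2 * Real.cos ((2 * j + 1) * x) *
          deriv (deriv H) x := by
        have := hH2.continuous
        fun_prop
      exact this.aestronglyMeasurable
    · intro j
      refine Eventually.of_forall fun x hx => ?_
      rw [uIoc_of_le (by positivity)] at hx
      rw [norm_mul, norm_mul]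
      have k1 : ‖Real.cos ((2 * j + 1) * x)‖ ≤ 1 := Real.abs_cos_le_one _
      have k2 := hC x ⟨hx.1.le, hx.2⟩
      have k3 : ‖wt j / (2 * (j : ℝ) + 1) ^ 2‖ = wt j / (2 * (j : ℝ) + 1) ^ 2 := by
        rw [Real.norm_of_nonneg]
        exact div_nonneg (wt_nonneg j) (by positivity)
      rw [k3]
      have k4 : 0 ≤ wt j / (2 * (j : ℝ) + 1) ^ 2 := div_nonneg (wt_nonneg j) (by positivity)
      calc wt j / (2 * (j : ℝ) + 1) ^ 2 * ‖Real.cos ((2 * j + 1) * x)‖ * ‖deriv (deriv H) x‖ ≤
          wt j / (2 * (j : ℝ) + 1) ^ 2 * 1 * C := by gcongr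
        _ = wt j / (2 * (j : ℝ) + 1) ^ 2 * C := by ring
    · exact Eventually.of_forall fun x hx => hasSum_Q0.summable.mul_right C
    · exact (continuous_const.intervalIntegrable _ _)
    · refine Eventually.of_forall fun x hx => ?_
      rw [uIoc_of_le (by positivity)] at hx
      exact (hasSum_Q hx.1.le hx.2).mul_right _
  have hsA : HasSum (fun j : ℕ => -(wt j * A j)) (deriv H 0 * Q 0 +
      ∫ x in (0 : ℝ)..(Real.pi / 2), Q x * deriv (deriv H) x) := by
    refine hs_congr ((hasSum_Q0.mul_left (deriv H 0)).add hsB) (fun j => ?_) rfl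
    have h := hAB j
    have h2 : (2 * (j : ℝ) + 1) ≠ 0 := by positivity
    have h3 : A j = -(deriv H 0 + B j) / (2 * (j : ℝ) + 1) ^ 2 := by
      rw [eq_div_iff (pow_ne_zero 2 h2), mul_comm]
      exact h
    rw [h3]
    ring
  -- integration by parts
  have hval : deriv H 0 * Q 0 + ∫ x in (0 : ℝ)..(Real.pi / 2), Q x * deriv (deriv H) x =
      Real.pi / 4 * ∫ x in (0 : ℝ)..(Real.pi / 2), H x := by
    have hdH : ∀ x, HasDerivAt H (deriv H x) x := fun x =>
      (hH.differentiable (by simp) x).hasDerivAt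
    have hdH1 : ∀ x, HasDerivAt (deriv H) (deriv (deriv H) x) x := fun x =>
      (hH1.differentiable (by simp) x).hasDerivAt
    have hq : ∀ x, HasDerivAt (fun x : ℝ => -(Real.pi / 4) + Real.pi * x / 4) (Real.pi / 4) x :=
      fun x => by
        have := (((hasDerivAt_id x).const_mul Real.pi).div_const 4).const_add (-(Real.pi / 4))
        rw [mul_one] at this
        exact this
    have cQ : Continuous Q := continuous_iff_continuousAt.2 fun x =>
      (hasDerivAt_Q x).continuousAt
    have c1 : Continuous fun x => Q x * deriv (deriv H) x := cQ.mul hH2.continuous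
    have c2 : Continuous fun x => Real.pi / 4 * H x := continuous_const.mul hH.continuous
    have i1 := intervalIntegral.integral_eq_sub_of_hasDerivAt (a := 0) (b := Real.pi / 2)
      (f := fun x => Q x * deriv H x - (-(Real.pi / 4) + Real.pi * x / 4) * H x)
      (f' := fun x => Q x * deriv (deriv H) x - Real.pi / 4 * H x)
      (fun x _ => by
        have k := ((hasDerivAt_Q x).mul (hdH1 x)).sub ((hq x).mul (hdH x))
        have e : Q x * deriv (deriv H) x - Real.pi / 4 * H x =
            ((-(Real.pi / 4) + Real.pi * x / 4) * deriv H x + Q x * deriv (deriv H) x) -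
            (Real.pi / 4 * H x + (-(Real.pi / 4) + Real.pi * x / 4) * deriv H x) := by ring
        rw [e]
        exact k)
      ((c1.sub c2).intervalIntegrable _ _)
    rw [intervalIntegral.integral_sub (c1.intervalIntegrable _ _) (c2.intervalIntegrable _ _),
      intervalIntegral.integral_const_mul] at i1
    have e1 : Q (Real.pi / 2) = 0 := by
      unfold Q
      ring
    simp only [h0, h1, e1, mul_zero, zero_mul, sub_zero, zero_sub] at i1
    linarith
  rw [hval] at hsA
  have hnn : ∀ j, 0 ≤ -(wt j * A j) := fun j => by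
    rcases eq_or_ne j 0 with h | h
    · rw [h, wt_zero, zero_mul, neg_zero]
    · have := mul_nonneg (wt_nonneg j) (neg_nonneg.2 (hm j h))
      rw [mul_neg] at this
      exact this
  have hge := hsA.nonneg hnn
  rcases hge.eq_or_lt with h | h
  · exfalso
    rw [← h] at hsA
    have hz := (hasSum_zero_iff_of_nonneg hnn).1 hsA
    have hB' : ∀ j : ℕ, j ≠ 0 → B j = -deriv H 0 := fun j hj => by
      have k := congrFun hz j
      simp only [Pi.zero_apply, neg_eq_zero, mul_eq_zero] at k
      have k2 : A j = 0 := k.resolve_left (wt_pos hj).ne'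
      have k3 := hAB j
      rw [k2, mul_zero] at k3
      linarith
    obtain ⟨C', hC'⟩ := coeff_le hH2
    obtain ⟨n, hn⟩ := exists_nat_gt (C' / deriv H 0)
    have k1 := hC' (n + 1)
    have k2 : |B (n + 1)| = deriv H 0 := by
      rw [hB' (n + 1) (Nat.succ_ne_zero n), abs_neg, abs_of_pos hd]
    have k3 : |B (n + 1)| ≤ C' / (2 * ((n + 1 : ℕ) : ℝ) + 1) := k1
    rw [k2, le_div_iff₀ (by positivity)] at k3
    rw [div_lt_iff₀ hd] at hn
    push_cast at k3
    nlinarith
  · have h4 : 0 < Real.pi / 4 := by positivity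
    exact (mul_pos_iff_of_pos_left h4).1 h

/-- the Fourier inequality on `[0, D]` -/
theorem four_pos' {D : ℝ} (hD : 0 < D) {h : ℝ → ℝ} (hh : ContDiff ℝ ∞ h) (h0 : h 0 = 0)
    (h1 : h D = 0) (hd : 0 < deriv h 0) (hm : ∀ j : ℕ, j ≠ 0 →
      ∫ r in (0 : ℝ)..D, Real.cos ((2 * j + 1) * (Real.pi / (2 * D) * r)) * h r ≤ 0) :
    0 < ∫ r in (0 : ℝ)..D, h r := by
  have hpi := Real.pi_pos
  set om : ℝ := Real.pi / (2 * D) with hom
  have hom0 : 0 < om := by rw [hom]; positivity
  set c : ℝ := 2 * D / Real.pi with hc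
  have hc0 : 0 < c := by rw [hc]; positivity
  have e1 : c * (Real.pi / 2) = D := by rw [hc]; field_simp
  have e2 : ∀ x, om * (c * x) = x := fun x => by rw [hom, hc]; field_simp
  have key : ∀ f : ℝ → ℝ, ∫ r in (0 : ℝ)..D, f r =
      c * ∫ x in (0 : ℝ)..(Real.pi / 2), f (c * x) := fun f => by
    have k := intervalIntegral.smul_integral_comp_mul_left (a := 0) (b := Real.pi / 2) f c
    rw [mul_zero, e1, smul_eq_mul] at k
    exact k.symm
  have hH : ContDiff ℝ ∞ fun x => h (c * x) := hh.comp (contDiff_const.mul contDiff_id)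
  have hdH : deriv (fun x => h (c * x)) 0 = c * deriv h 0 := by
    have k1 : HasDerivAt h (deriv h (c * 0)) (c * 0) :=
      (hh.differentiable (by simp) _).hasDerivAt
    have k2 : HasDerivAt (fun x => h (c * x)) (deriv h (c * 0) * (c * 1)) 0 :=
      k1.comp (0 : ℝ) ((hasDerivAt_id (0 : ℝ)).const_mul c)
    rw [k2.deriv, mul_zero, mul_one, mul_comm]
  have k := four_pos hH (by rw [mul_zero]; exact h0) (by rw [e1]; exact h1)
    (by rw [hdH]; positivity) (fun j hj => by
      have k1 := hm j hj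
      rw [key] at k1
      have k2 : ∀ x, Real.cos ((2 * j + 1) * (om * (c * x))) * h (c * x) =
          Real.cos ((2 * j + 1) * x) * h (c * x) := fun x => by rw [e2]
      simp only [k2] at k1
      by_contra hcon
      push Not at hcon
      exact absurd k1 (not_le.2 (mul_pos hc0 hcon)))
  rw [key]
  exact mul_pos hc0 k

end

end Vale.Agent.P231.S3E2
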