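import Vale.Agent.P231.S2N.IndexLe

/-!
# P231, stage 3, S3-A: superpositions of the kernel Jacobi fields along one geodesic, with an
arbitrary smooth section of the kernel bundle along the geodesic as density
-/

set_option maxSynthPendingDepth 3
set_option linter.unusedSectionVars false
set_option linter.unusedVariables false

open Bundle Manifold Set Filter Module MeasureTheory
open scoped ContDiff Manifold Topology

namespace Vale.Agent.P231.S3E2

noncomputable section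

open Vale.Agent.P234 Vale.Agent.P231 Vale.Agent.P231.Fm Vale.Agent.P231.W Vale.Agent.P231.WR
open Vale.Agent.P231.H775 Vale.Agent.P231.WC Vale.Agent.P231.S2N

variable {E : Type*} [NormedAddCommGroup E] [NormedSpace ℝ E]
  {M : Type*} [MetricSpace M] [ChartedSpace E M]
  [RiemannianBundle (fun x : M => TangentSpace 𝓘(ℝ, E) x)]
  {e : ∀ x : M, TangentSpace 𝓘(ℝ, E) x → M}
  [FiniteDimensional ℝ E] [IsManifold 𝓘(ℝ, E) ∞ M]
  [IsContMDiffRiemannianBundle 𝓘(ℝ, E) ∞ E (fun x : M => TangentSpace 𝓘(ℝ, E) x)]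
  [CompactSpace M] [ConnectedSpace M] [IsRiemannianManifold 𝓘(ℝ, E) M]

variable {D : ℝ}

/-- smooth sections of the kernel bundle along the geodesic of `v` -/
structure Sc (F : Facts e) (D : ℝ) (v : UT E M) (U : ℝ → E) : Prop where
  fa : ∀ t, FA e v U t
  mem : ∀ t, (U t : TangentSpace 𝓘(ℝ, E) (foot (phi F (v, t)))) ∈ Lf e D (phi F (v, t))

variable {F : Facts e} {v : UT E M}

theorem Sc.orth {U : ℝ → E} (h : Sc F D v U) (t : ℝ) :
    ip (foot (phi F (v, t))) (vec' (phi F (v, t))) (U t) = 0 := (mem_Lf.1 (h.mem t)).2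

theorem Sc.add {U U' : ℝ → E} (h : Sc F D v U) (h' : Sc F D v U') :
    Sc F D v fun t => U t + U' t where
  fa t := (h.fa t).add (h'.fa t)
  mem t := Submodule.add_mem _ (h.mem t) (h'.mem t)

theorem Sc.smul {U : ℝ → E} (h : Sc F D v U) {c : ℝ → ℝ} (hc : ContDiff ℝ ∞ c) :
    Sc F D v fun t => c t • U t where
  fa t := by
    filter_upwards [h.fa t] with s hs
    exact SmV.smul hc.contDiffAt hs
  mem t := Submodule.smul_mem _ _ (h.mem t)

theorem Sc.zero : Sc F D v fun _ => 0 where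
  fa t := by
    have h := (Fld.zero (E := E) (M := M)).fa F v t
    exact h
  mem t := Submodule.zero_mem _

theorem Sc.sum {ι : Type*} (s : Finset ι) {U : ι → ℝ → E} (h : ∀ i, Sc F D v (U i)) :
    Sc F D v fun t => ∑ i ∈ s, U i t := by
  classical
  induction s using Finset.induction_on with
  | empty => simpa using Sc.zero
  | insert i s hi ih =>
    simp only [Finset.sum_insert hi]
    exact (h i).add ih

theorem Sc.of_LS {W : UT E M → E} (h : LS e D W) (v : UT E M) :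
    Sc F D v fun t => W (phi F (v, t)) where
  fa t := h.fld.fa F v t
  mem t := mem_Lf.2 ⟨h.mem _, h.orth _⟩

/-- shift of the time -/
theorem Sc.shift {U : ℝ → E} (h : Sc F D v U) (t : ℝ) :
    Sc F D (phi F (v, t)) fun s => U (t + s) where
  fa s := fa_shift F h.fa t s
  mem s := by
    rw [phi_add]
    exact h.mem (t + s)

/-! ### smoothness -/

section Plots

variable {E' : Type} [NormedAddCommGroup E'] [NormedSpace ℝ E'] [FiniteDimensional ℝ E']

theorem at_Jcd {U : ℝ → E} (hU : ∀ t, FA e v U t) {σ ρ : E' → ℝ} {x : E'} (hσ : Sm σ x)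
    (hρ : Sm ρ x) :
    (dTM E M).At (fun s => tb (gm e (phi F (v, σ s), ρ s))
      (dE e (foot (phi F (v, σ s))) (ρ s • vec' (phi F (v, σ s))) (U (σ s)))) x := by
  have hV : (dUT E M).At (fun s => phi F (v, σ s)) x :=
    map_phi F (u := fun s => (v, σ s)) ⟨H583.at_const v _, hσ⟩
  have h1 : ∀ᶠ s in 𝓝 x, SmV (fun s => foot (phi F (v, σ s))) (fun s => tv (phi F (v, σ s))) s := hV
  let w' : ∀ s, TangentSpace 𝓘(ℝ, E) (foot (phi F (v, σ s))) := fun s => U (σ s)
  have h2 : ∀ᶠ s in 𝓝 x, SmV (fun s => foot (phi F (v, σ s))) w' s := by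
    filter_upwards [hσ] with s hs
    exact SmV.comp (f := fun t => gm e (v, t)) (u := fun t => (U t : E)) (h := σ)
      (hU (σ s)).self_of_nhds hs
  let u' : ∀ s, TangentSpace 𝓘(ℝ, E) (foot (phi F (v, σ s))) := fun s => ρ s • tv (phi F (v, σ s))
  have h4 : ∀ᶠ s in 𝓝 x, SmV (fun s => foot (phi F (v, σ s))) u' s := by
    filter_upwards [h1, hρ] with s h3 h5
    exact h3.smul h5
  have key : ∀ᶠ s in 𝓝 x, ContMDiffAt 𝓘(ℝ, E') 𝓘(ℝ, E).tangent ∞
      (fun s => tb (gm e (phi F (v, σ s), ρ s))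
        (dE e (foot (phi F (v, σ s))) (ρ s • vec' (phi F (v, σ s))) (U (σ s)))) s := by
    filter_upwards [eventually_eventually_nhds.2 h4, eventually_eventually_nhds.2 h2] with s h5 h6
    exact H583.smV_dE F.isExp h5 h6
  exact key

theorem at_Jc {U : ℝ → E} (hU : ∀ t, FA e v U t) {σ ρ : E' → ℝ} {x : E'} (hσ : Sm σ x)
    (hρ : Sm ρ x) :
    (dTM E M).At (fun s => tb (gm e (phi F (v, σ s), ρ s))
      (Jc e (phi F (v, σ s)) (U (σ s)) (ρ s))) x := by
  have h1 := at_smul (f := fun s => gm e (phi F (v, σ s), ρ s)) hρ (at_Jcd (F := F) hU hσ hρ)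
  have h2 : (fun s => tb (gm e (phi F (v, σ s), ρ s))
      (Jc e (phi F (v, σ s)) (U (σ s)) (ρ s))) =
      fun s => tb (gm e (phi F (v, σ s), ρ s)) (ρ s •
        dE e (foot (phi F (v, σ s))) (ρ s • vec' (phi F (v, σ s))) (U (σ s))) := by
    funext s
    exact tb_congr rfl (Jc_eq F _ _ _)
  rw [h2]
  exact h1

end Plots

/-- the superposition of the kernel Jacobi fields -/
def zF (F : Facts e) (D : ℝ) (v : UT E M) (U : ℝ → E) (t : ℝ) : E :=
  ∫ r in (0 : ℝ)..D, Jc e (phi F (v, t - r)) (U (t - r)) r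

/-- its source -/
def dF (F : Facts e) (hD : 0 < D) (hB : InjGE e D) (hdiam : ∀ p q : M, dist p q ≤ D)
    (v : UT E M) (U : ℝ → E) (t : ℝ) : E :=
  U t - Tr F hD hB hdiam (phi F (v, t - D)) (U (t - D))

theorem zF_shift (v : UT E M) (U : ℝ → E) (t s : ℝ) :
    zF F D (phi F (v, t)) (fun s => U (t + s)) s = zF F D v U (t + s) := by
  unfold zF
  refine intervalIntegral.integral_congr fun r _ => ?_
  simp only [phi_add]
  rw [add_sub_assoc]

theorem dF_shift (hD : 0 < D) (hB : InjGE e D) (hdiam : ∀ p q : M, dist p q ≤ D)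
    (v : UT E M) (U : ℝ → E) (t s : ℝ) :
    dF F hD hB hdiam (phi F (v, t)) (fun s => U (t + s)) s = dF F hD hB hdiam v U (t + s) := by
  unfold dF
  simp only [phi_add]
  rw [add_sub_assoc]

theorem at_integ {U : ℝ → E} (hU : ∀ t, FA e v U t) (t r : ℝ) :
    ContMDiffAt 𝓘(ℝ, ℝ × ℝ) 𝓘(ℝ, E).tangent ∞
      (fun p : ℝ × ℝ => tb (gm e (v, p.1)) (Jc e (phi F (v, p.1 - p.2)) (U (p.1 - p.2)) p.2))
      (t, r) := by
  have h4 := Filter.Eventually.self_of_nhds (at_Jc (F := F) hU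
    (σ := fun p : ℝ × ℝ => p.1 - p.2) (ρ := fun p : ℝ × ℝ => p.2) (x := (t, r))
    (Sm.of_contDiff (contDiff_fst.sub contDiff_snd) _) (Sm.of_contDiff contDiff_snd _))
  refine ContMDiffAt.congr_of_eventuallyEq h4 ?_
  refine Eventually.of_forall fun p => tb_congr ?_ rfl
  rw [gm_phi F, sub_add_cancel]

/-- the superposition is smooth -/
theorem fa_zF {U : ℝ → E} (hU : ∀ t, FA e v U t) (t : ℝ) : FA e v (zF F D v U) t := by
  refine Eventually.of_forall fun t => ?_
  have hf : ∀ s : ℝ, ContMDiffAt 𝓘(ℝ, ℝ) 𝓘(ℝ, E) ∞ (fun s => gm e (v, s)) s := fun s =>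
    (hU s).self_of_nhds.base
  exact H583.smV_integral (V := ℝ) (f := fun s => gm e (v, s))
    (u := fun s r => Jc e (phi F (v, s - r)) (U (s - r)) r) D
    (Eventually.of_forall hf) (Eventually.of_forall fun s r => at_integ hU s r)

theorem cont_integ {U : ℝ → E} (hU : ∀ t, FA e v U t) (t : ℝ) :
    Continuous (fun r : ℝ => Jc e (phi F (v, t - r)) (U (t - r)) r) := by
  refine continuous_raw (x₀ := gm e (v, t)) fun r => ?_
  have h3 : ContMDiffAt 𝓘(ℝ, ℝ) 𝓘(ℝ, ℝ × ℝ) ∞ (fun r : ℝ => ((t, r) : ℝ × ℝ)) r :=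
    (contDiffAt_const.prodMk contDiffAt_id).contMDiffAt
  exact ContMDiffAt.comp (f := fun r : ℝ => ((t, r) : ℝ × ℝ)) (g := fun p : ℝ × ℝ =>
    tb (gm e (v, p.1)) (Jc e (phi F (v, p.1 - p.2)) (U (p.1 - p.2)) p.2)) r
    (at_integ (F := F) hU t r) h3

theorem zF_add {U U' : ℝ → E} (h : ∀ t, FA e v U t) (h' : ∀ t, FA e v U' t) (t : ℝ) :
    zF F D v (fun s => U s + U' s) t = zF F D v U t + zF F D v U' t := by
  unfold zF
  simp only [Jc_add]
  exact intervalIntegral.integral_add ((cont_integ h t).intervalIntegrable _ _)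
    ((cont_integ h' t).intervalIntegrable _ _)

theorem zF_smul (k : ℝ) (U : ℝ → E) (t : ℝ) :
    zF F D v (fun s => k • U s) t = k • zF F D v U t := by
  unfold zF
  simp only [Jc_smul]
  exact intervalIntegral.integral_smul _ _

theorem ip_zF {U : ℝ → E} (h : ∀ t, FA e v U t) (t : ℝ) (c : E) :
    ip (gm e (v, t)) c (zF F D v U t) =
      ∫ r in (0 : ℝ)..D, ip (gm e (v, t)) c (Jc e (phi F (v, t - r)) (U (t - r)) r) :=
  (ContinuousLinearMap.intervalIntegral_comp_comm (H583.ipL (gm e (v, t)) c)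
    ((cont_integ h t).intervalIntegrable 0 D)).symm

/-- the superposition is orthogonal to the direction -/
theorem perp_zF {U : ℝ → E} (h : Sc F D v U) (t : ℝ) :
    ip (gm e (v, t)) (vec' (phi F (v, t))) (zF F D v U t) = 0 := by
  rw [ip_zF h.fa]
  have h1 : ∀ r : ℝ, ip (gm e (v, t)) (vec' (phi F (v, t)))
      (Jc e (phi F (v, t - r)) (U (t - r)) r) = 0 := by
    intro r
    have h2 := gauss_Jc F (phi F (v, t - r)) (U (t - r)) r
    rw [h.orth (t - r), mul_zero, phi_add, sub_add_cancel] at h2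
    have h3 : gm e (phi F (v, t - r), r) = gm e (v, t) := by rw [gm_phi F, sub_add_cancel]
    rw [h3] at h2
    exact h2
  simp only [h1]
  simp

/-! ### the Jacobi equation -/

/-- the Jacobi fields in the chart -/
def jU (F : Facts e) (U : ℝ → E) (x₀ : M) (v : UT E M) (z : ℝ × ℝ) : E :=
  crd x₀ (gm e (v, z.2)) (Jc e (phi F (v, z.1)) (U z.1) (z.2 - z.1) : E)

theorem sm_jU {U : ℝ → E} (h : ∀ t, FA e v U t) (x₀ : M) (s : ℝ) {t : ℝ}
    (ht : gm e (v, t) ∈ (extChartAt 𝓘(ℝ, E) x₀).source) : Sm (jU F U x₀ v) (s, t) := by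
  have h1 : Sm (fun z : ℝ × ℝ => z.1) (s, t) := Sm.of_contDiff contDiff_fst _
  have h2 : Sm (fun z : ℝ × ℝ => z.2 - z.1) (s, t) :=
    Sm.of_contDiff (contDiff_snd.sub contDiff_fst) _
  have h4 := at_Jc (F := F) h h1 h2
  have h5 : ∀ᶠ z in 𝓝 ((s, t) : ℝ × ℝ), gm e (v, z.2) ∈ (extChartAt 𝓘(ℝ, E) x₀).source := by
    have k0 : Sm (fun z : ℝ × ℝ => z.2) (s, t) := Sm.of_contDiff contDiff_snd _
    have k1 : (dM E M).At (fun z : ℝ × ℝ => gm e (v, z.2)) (s, t) :=
      map_gm F (u := fun z : ℝ × ℝ => (v, z.2)) ⟨H583.at_const v _, k0⟩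
    have k2 : S2 (E := E) (fun z : ℝ × ℝ => gm e (v, z.2)) (s, t) := k1
    exact k2.src x₀ ht
  have h6 : ∀ z : ℝ × ℝ, gm e (phi F (v, z.1), z.2 - z.1) = gm e (v, z.2) := fun z =>
    gm_phi_sub F v z.1 z.2
  filter_upwards [h4, h5] with z h7 h8
  have h9 : SmV (fun z : ℝ × ℝ => gm e (v, z.2))
      (fun z => (Jc e (phi F (v, z.1)) (U z.1) (z.2 - z.1) : E)) z := by
    refine ContMDiffAt.congr_of_eventuallyEq h7 ?_
    exact Eventually.of_forall fun z' => tb_congr (h6 z').symm rfl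
  exact ((smV_iff (f := fun z : ℝ × ℝ => gm e (v, z.2)) (s := z) x₀ h8).1 h9).2

theorem yf_zF {U : ℝ → E} (h : ∀ t, FA e v U t) (x₀ : M) {t : ℝ}
    (ht : gm e (v, t) ∈ (extChartAt 𝓘(ℝ, E) x₀).source) :
    yf e x₀ v (zF F D v U) t = ∫ r in (0 : ℝ)..D, jU F U x₀ v (t - r, t) := by
  set x := gm e (v, t) with hx
  have hjj : ∀ r, jU F U x₀ v (t - r, t) =
      (crd x₀ x (Jc e (phi F (v, t - r)) (U (t - r)) r : E) : E) := by
    intro r
    unfold jU
    refine crd_congr x₀ rfl ?_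
    rw [sub_sub_cancel]
  let Lc : E →L[ℝ] E := crd x₀ x
  have hint : IntervalIntegrable (fun r => Jc e (phi F (v, t - r)) (U (t - r)) r)
      MeasureTheory.volume 0 D := (cont_integ (F := F) h t).intervalIntegrable 0 D
  have h1 := Lc.intervalIntegral_comp_comm hint
  have h2 : yf e x₀ v (zF F D v U) t =
      Lc (∫ r in (0 : ℝ)..D, Jc e (phi F (v, t - r)) (U (t - r)) r) := rfl
  rw [h2, ← h1]
  refine intervalIntegral.integral_congr fun r _ => ?_
  exact (hjj r).symm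

/-- the linearised geodesic operator of the superposition, at time zero -/
theorem je_zF0 (hD : 0 < D) (hB : InjGE e D) (hdiam : ∀ p q : M, dist p q ≤ D)
    {U : ℝ → E} (h : Sc F D v U) (x₀ : M) (hx : foot v ∈ (extChartAt 𝓘(ℝ, E) x₀).source) :
    JE e x₀ v (zF F D v U) (dF F hD hB hdiam v U 0) := by
  intro b
  have hx0 : gm e (v, 0) ∈ (extChartAt 𝓘(ℝ, E) x₀).source := src_zero F hx
  have htar : WC.kap e x₀ v 0 ∈ (extChartAt 𝓘(ℝ, E) x₀).target :=
    (extChartAt 𝓘(ℝ, E) x₀).map_source hx0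
  have hzero : ∀ p : M, (crd x₀ p (0 : E) : E) = 0 := fun p => map_zero (crd x₀ p)
  have hjet : ∀ s, jU F U x₀ v (s, 0) = yf e x₀ v (fun t => Jc e (phi F (v, s))
      (U s) (t - s)) 0 ∧ d2 (jU F U x₀ v) (s, 0) =
      deriv (yf e x₀ v (fun t => Jc e (phi F (v, s)) (U s) (t - s))) 0 ∧
      d2 (d2 (jU F U x₀ v)) (s, 0) = deriv (deriv (yf e x₀ v (fun t => Jc e (phi F (v, s))
        (U s) (t - s)))) 0 := fun s =>
    jet2 (c := jU F U x₀ v) (κ := yf e x₀ v (fun t => Jc e (phi F (v, s))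
      (U s) (t - s))) (θ := s) (t := 0) (sm_jU h.fa x₀ s hx0)
      (Eventually.of_forall fun t => rfl)
  have h1 := superpose (A := cm x₀) (b := b) (D := D) (sm_cm x₀ htar) (isOpen_src F x₀ v) hx0
    (p := deriv (WC.kap e x₀ v) 0) (q := deriv (deriv (WC.kap e x₀ v)) 0)
    (j := jU F U x₀ v) (fun s t ht => sm_jU h.fa x₀ s ht)
    (fun t ht => by
      have k : Jc e (phi F (v, t)) (U t) (t - t) = 0 := by
        rw [sub_self, Jc_zero F]
      unfold jU
      exact (crd_congr x₀ rfl k).trans (hzero _))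
    (fun t ht => by
      have k : Jc e (phi F (v, t - D)) (U (t - D)) (t - (t - D)) = 0 := by
        rw [sub_sub_cancel]
        exact Jc_D F hD hB hdiam _ (h.mem _)
      unfold jU
      exact (crd_congr x₀ rfl k).trans (hzero _))
    (fun s => by
      obtain ⟨e1, e2, e3⟩ := hjet s
      rw [e1, e2, e3]
      have k := je_Jc F hD hB x₀ v hx s (c := U s) (h.orth s) b
      refine k.trans ?_
      have k2 : (crd x₀ (foot v) (0 : E) : E) = 0 := map_zero (crd x₀ (foot v))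
      rw [k2, map_zero]
      rfl)
    (y := yf e x₀ v (zF F D v U)) (fun t ht => yf_zF h.fa x₀ ht)
  rw [h1]
  have e0 : d2 (jU F U x₀ v) (0, 0) = (crd x₀ (foot v) (U 0 : E) : E) := by
    rw [(hjet 0).2.1, phi_zero]
    have k := deriv_Jc_zero F x₀ v hx (U 0)
    rw [← k]
    congr 2
    funext t
    rw [sub_zero]
  have e1 : d2 (jU F U x₀ v) (-D, 0) = (crd x₀ (foot v)
      (Tr F hD hB hdiam (phi F (v, -D)) (U (-D)) : E) : E) := by
    rw [(hjet (-D)).2.1]
    have huv : phi F (phi F (v, -D), D) = v := by rw [phi_add, neg_add_cancel, phi_zero]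
    exact deriv_Jc_D F hD hB hdiam x₀ (phi F (v, -D)) v huv hx (h.mem _)
  rw [e0, e1]
  have e2 : (crd x₀ (foot v) (dF F hD hB hdiam v U 0 : E) : E) = (crd x₀ (foot v) (U 0 : E) : E) -
      (crd x₀ (foot v) (Tr F hD hB hdiam (phi F (v, -D)) (U (-D)) : E) : E) := by
    unfold dF
    rw [zero_sub]
    exact map_sub (crd x₀ (foot v)) _ _
  rw [e2]

/-- the linearised geodesic operator of the superposition -/
theorem je_zF (hD : 0 < D) (hB : InjGE e D) (hdiam : ∀ p q : M, dist p q ≤ D)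
    {U : ℝ → E} (h : Sc F D v U) (t : ℝ) :
    JE e (foot (phi F (v, t))) (phi F (v, t)) (fun r => zF F D v U (t + r))
      (dF F hD hB hdiam v U t) := by
  have h1 := je_zF0 hD hB hdiam (h.shift t) (foot (phi F (v, t))) (mem_extChartAt_source _)
  refine JE.congr (fun r => zF_shift v U t r) ?_ h1
  rw [dF_shift, add_zero]

end

end Vale.Agent.P231.S3E2
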