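import Vale.Agent.P231.S3E2.Wr
import Vale.Agent.P231.S3E2.Sec
import Vale.Agent.P231.S2N.Tra

/-!
# P231, stage 3, S3-A: fields along one closed geodesic orthogonal to the negative space have
nonnegative index form
-/

set_option maxSynthPendingDepth 3
set_option linter.unusedSectionVars false
set_option linter.unusedVariables false

open Bundle Manifold Set Filter Module MeasureTheory
open scoped ContDiff Manifold Topology

namespace Vale.Agent.P231.S3E2

noncomputable section

open Vale.Agent.P234 Vale.Agent.P231 Vale.Agent.P231.Fm Vale.Agent.P231.W Vale.Agent.P231.WR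
open Vale.Agent.P231.H775 Vale.Agent.P231.WC Vale.Agent.P231.S2N

variable {E : Type*} [NormedAddCommGroup E] [NormedSpace ℝ E]
  {M : Type*} [MetricSpace M] [ChartedSpace E M]
  [RiemannianBundle (fun x : M => TangentSpace 𝓘(ℝ, E) x)]
  {e : ∀ x : M, TangentSpace 𝓘(ℝ, E) x → M}
  [FiniteDimensional ℝ E] [IsManifold 𝓘(ℝ, E) ∞ M]
  [IsContMDiffRiemannianBundle 𝓘(ℝ, E) ∞ E (fun x : M => TangentSpace 𝓘(ℝ, E) x)]
  [CompactSpace M] [ConnectedSpace M] [IsRiemannianManifold 𝓘(ℝ, E) M]

variable {D : ℝ}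

/-- periodic fields along one geodesic, orthogonal to it, which satisfy the Jacobi equation with
an antiperiodic source in the kernel bundle -/
structure LF (F : Facts e) (hD : 0 < D) (hB : InjGE e D) (hdiam : ∀ p q : M, dist p q ≤ D)
    (v : UT E M) (X δ : ℝ → E) : Prop where
  fa : ∀ t, FA e v X t
  sfa : ∀ t, FA e v δ t
  perp : ∀ t, ip (gm e (v, t)) (vec' (phi F (v, t))) (X t) = 0
  per : ∀ t, X (t + 2 * D) = X t
  mem : ∀ t, (δ t : TangentSpace 𝓘(ℝ, E) (foot (phi F (v, t)))) ∈ Lf e D (phi F (v, t))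
  half : ∀ t, δ (t + D) = -Tr F hD hB hdiam (phi F (v, t)) (δ t)
  je : ∀ t, JE e (foot (phi F (v, t))) (phi F (v, t)) (fun s => X (t + s)) (δ t)

variable {F : Facts e} {hD : 0 < D} {hB : InjGE e D} {hdiam : ∀ p q : M, dist p q ≤ D}
  {v : UT E M}

/-- the restriction of a global field -/
theorem LF.of_DF {X δ : UT E M → E} (h : DF F hD hB hdiam X δ) (v : UT E M) :
    LF F hD hB hdiam v (fun t => X (phi F (v, t))) (fun t => δ (phi F (v, t))) where
  fa := h.fld.fa F v
  sfa := h.sfld.fa F v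
  perp t := h.perp _
  per t := by
    have k := W.phi_per F hD hB hdiam (phi F (v, t))
    rw [phi_add] at k
    exact congrArg X k
  mem t := h.mem _
  half t := by
    have k := h.half (phi F (v, t))
    rw [phi_add] at k
    exact k
  je t := h.je_shift v t

theorem LF.add {X Y δ η : ℝ → E} (h : LF F hD hB hdiam v X δ) (h' : LF F hD hB hdiam v Y η) :
    LF F hD hB hdiam v (fun t => X t + Y t) (fun t => δ t + η t) where
  fa t := (h.fa t).add (h'.fa t)
  sfa t := (h.sfa t).add (h'.sfa t)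
  perp t := by rw [ip_add_right', h.perp, h'.perp, add_zero]
  per t := by rw [h.per, h'.per]
  mem t := Submodule.add_mem _ (h.mem t) (h'.mem t)
  half t := by rw [h.half, h'.half, Tr_add, neg_add]
  je t := JE.add F (mem_extChartAt_source _) (fa_shift F h.fa t 0) (fa_shift F h'.fa t 0)
    (h.je t) (h'.je t)

theorem LF.smul (c : ℝ) {X δ : ℝ → E} (h : LF F hD hB hdiam v X δ) :
    LF F hD hB hdiam v (fun t => c • X t) (fun t => c • δ t) where
  fa t := (h.fa t).smul c
  sfa t := (h.sfa t).smul c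
  perp t := by rw [ip_smul_right', h.perp, mul_zero]
  per t := by rw [h.per]
  mem t := Submodule.smul_mem _ c (h.mem t)
  half t := by rw [h.half, Tr_smul, smul_neg]
  je t := JE.smul F (mem_extChartAt_source _) c (fa_shift F h.fa t 0) (h.je t)

/-- **nonnegativity of the index form** under the boundary condition -/
theorem LF.int_nonpos {l : ℕ}
    (hP : ∀ x y : M, dist x y = D → finrank ℝ (H775.Pl e D x y) = l + 1)
    {X δ : ℝ → E} (h : LF F hD hB hdiam v X δ)
    (hΘ : ∀ w : E, (w : TangentSpace 𝓘(ℝ, E) (foot v)) ∈ Lf e D v →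
      ip (foot v) w (X 0) = ip (gm e (v, D)) (Tr F hD hB hdiam v w) (X D)) :
    ∫ t in (0 : ℝ)..(2 * D), ip (gm e (v, t)) (δ t) (X t) ≤ 0 := by
  have hneg : ∀ (x : M) (p q : E), ip x p (-q) = -ip x p q := fun x p q => ip_neg_right' x p q
  have hp0 : ip (foot v) (vec' v) (X 0) = 0 := by
    have k := h.perp 0
    rw [phi_zero, gm_zero F] at k
    exact k
  obtain ⟨c₁, c₂, h1, h2, h3, h4⟩ := exists_bj F hD hB hdiam hP v (a := -X 0)
    (b := -X D) (by rw [hneg, hp0, neg_zero]) (by rw [hneg, h.perp D, neg_zero])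
    (fun w hw => by rw [hneg, hneg, hΘ w hw])
  set s : ℝ := -(D / 2) with hs
  -- the Jacobi field
  set J : ℝ → E := fun t => Jc e (phi F (v, 0)) c₁ (t - 0) + Jc e (phi F (v, s)) c₂ (t - s) with hJ
  have hJ0 : J 0 = -X 0 := by
    rw [← h3]
    simp only [hJ]
    rw [phi_zero, sub_zero]
  have hJD : J D = -X D := by
    rw [← h4]
    simp only [hJ]
    rw [phi_zero, sub_zero]
  have h1' : ip (foot (phi F (v, 0))) (vec' (phi F (v, 0))) c₁ = 0 := by
    rw [phi_zero]; exact h1
  have hJfa : ∀ t, FA e v J t := fun t => (fa_Jc F v c₁ 0 t).add (fa_Jc F v c₂ s t)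
  have hJper : ∀ t, J (t + 2 * D) = J t := by
    intro t
    simp only [hJ]
    have k1 := Jc_per F hD hB hdiam h1' (t - 0)
    have k2 := Jc_per F hD hB hdiam h2 (t - s)
    rw [← k1, ← k2]
    congr 2 <;> ring
  set Z : ℝ → E := fun t => X t + J t with hZ
  have hZfa : ∀ t, FA e v Z t := fun t => (h.fa t).add (hJfa t)
  have hZper : ∀ t, Z (t + 2 * D) = Z t := by
    intro t
    simp only [hZ]
    rw [hJper, h.per]
  have hZ0 : Z 0 = 0 := by
    simp only [hZ]
    rw [hJ0, add_neg_cancel]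
  have hZD : Z D = 0 := by
    simp only [hZ]
    rw [hJD, add_neg_cancel]
  have hje : ∀ t, JE e (foot (phi F (v, t))) (phi F (v, t)) (fun r => Z (t + r)) (δ t) := by
    intro t
    have hsrc := mem_extChartAt_source (I := 𝓘(ℝ, E)) (foot (phi F (v, t)))
    have k1 := h.je t
    have k2 := je_Jc_shift F hD hB v 0 t h1'
    have k3 := je_Jc_shift F hD hB v s t h2
    have f1 : FA e (phi F (v, t)) (fun r => X (t + r)) 0 := fa_shift F h.fa t 0
    have f2 : FA e (phi F (v, t)) (fun r => Jc e (phi F (v, 0)) c₁ (t + r - 0)) 0 :=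
      fa_shift F (Z := fun t => Jc e (phi F (v, 0)) c₁ (t - 0)) (fa_Jc F v c₁ 0) t 0
    have f3 : FA e (phi F (v, t)) (fun r => Jc e (phi F (v, s)) c₂ (t + r - s)) 0 :=
      fa_shift F (Z := fun t => Jc e (phi F (v, s)) c₂ (t - s)) (fa_Jc F v c₂ s) t 0
    have k4 := JE.add F hsrc f1 (f2.add f3) k1 (JE.add F hsrc f2 f3 k2 k3)
    exact JE.congr (fun r => rfl) (by rw [add_zero, add_zero]) k4
  have key := deriv2_enZ F hD hB hdiam hZfa hZper (δ := δ) hje (cont_fa F h.sfa hZfa)
  have hpos := deriv2_enZ_nonneg F hD hB hdiam hZfa hZper hZ0 hZD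
  have hsplit : ∀ t, ip (gm e (v, t)) (δ t) (Z t) =
      ip (gm e (v, t)) (δ t) (X t) + ip (gm e (v, t)) (δ t) (J t) := fun t => ip_add_right' _ _ _ _
  have c1 := cont_fa F h.sfa h.fa
  have c2 := cont_fa F h.sfa hJfa
  have hanti : ∫ t in (0 : ℝ)..(2 * D), ip (gm e (v, t)) (δ t) (J t) = 0 := by
    refine int_anti c2 fun t => ?_
    have w1 := wronskian_Jc F hD hB hdiam hP v t (h.mem t) 0 c₁
    have w2 := wronskian_Jc F hD hB hdiam hP v t (h.mem t) s c₂
    have w3 := h.half t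
    have w4 : ip (gm e (v, t + D)) (-Tr F hD hB hdiam (phi F (v, t)) (δ t))
        (J (t + D)) = -ip (gm e (v, t + D)) (Tr F hD hB hdiam (phi F (v, t)) (δ t))
        (J (t + D)) := inner_neg_left (𝕜 := ℝ) (E := TangentSpace 𝓘(ℝ, E) (gm e (v, t + D))) _ _
    have w5 : ip (gm e (v, t + D)) (Tr F hD hB hdiam (phi F (v, t)) (δ t))
        (J (t + D)) = ip (gm e (v, t)) (δ t) (J t) := by
      simp only [hJ]
      rw [ip_add_right', ip_add_right', w1, w2]
    rw [w3, w4, w5]
  simp only [hsplit] at key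
  rw [intervalIntegral.integral_add (c1.intervalIntegrable _ _) (c2.intervalIntegrable _ _),
    hanti, add_zero] at key
  linarith

/-- symmetry of the index form -/
theorem LF.green {X Y δ η : ℝ → E} (h : LF F hD hB hdiam v X δ) (h' : LF F hD hB hdiam v Y η) :
    ∫ t in (0 : ℝ)..(2 * D), ip (gm e (v, t)) (δ t) (Y t) =
      ∫ t in (0 : ℝ)..(2 * D), ip (gm e (v, t)) (η t) (X t) :=
  S3E2.green F (W.phi_per F hD hB hdiam v) h.fa h'.fa h.per h'.per h.je h'.je
    (cont_fa F h.sfa h'.fa) (cont_fa F h'.sfa h.fa)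

variable {ι : Type} [Fintype ι] [DecidableEq ι] {l : ℕ} {X δ : ι → UT E M → E} {ε : ℝ}

/-- **fields orthogonal to the negative space have nonnegative index form** -/
theorem LF.int_nonpos_of_orth
    (hP : ∀ x y : M, dist x y = D → finrank ℝ (H775.Pl e D x y) = l + 1)
    (hf : Fam F hD hB hdiam l X δ ε) {Z η : ℝ → E} (h : LF F hD hB hdiam v Z η)
    (horth : ∀ b, Pm F D X δ ε v b = b →
      ∫ t in (0 : ℝ)..(2 * D), ip (gm e (v, t)) (η t) (XX X b (phi F (v, t))) = 0) :
    ∫ t in (0 : ℝ)..(2 * D), ip (gm e (v, t)) (η t) (Z t) ≤ 0 := by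
  set w : E := prL e D v (Z 0) - Tr F hD hB hdiam (phi F (v, D)) (Z D) with hw
  have hwm : (w : TangentSpace 𝓘(ℝ, E) (foot v)) ∈ Lf e D v := by
    refine Submodule.sub_mem _ (prL_mem D v _) ?_
    have h1 := Tr_mem F hD hB hdiam (phi F (v, D)) (Z D)
    rw [phi_D_D F hD hB hdiam] at h1
    exact h1
  obtain ⟨b, hb, hbw⟩ := hf.surj hP v hwm
  have hY : LF F hD hB hdiam v (fun t => XX X b (phi F (v, t))) (fun t => XX δ b (phi F (v, t))) :=
    LF.of_DF (DF.xx hf.df b) v
  have hd := h.add (hY.smul (-1))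
  have hpq : ∀ (x : M) (p q r : E), ip x p (q + (-1 : ℝ) • r) = ip x p q - ip x p r := by
    intro x p q r
    rw [ip_add_right', ip_smul_right']
    ring
  have hqp : ∀ (x : M) (p q r : E), ip x (q + (-1 : ℝ) • r) p = ip x q p - ip x r p := by
    intro x p q r
    rw [ip_add_left', ip_smul_left']
    ring
  have h1 := hd.int_nonpos hP (fun w' hw' => by
    have k1 := ip_Th0 F hD hB hdiam (XX X b) v hw'
    have k2 : ip (foot v) w' w = ip (foot v) w' (Z 0) -
        ip (gm e (v, D)) (Tr F hD hB hdiam v w') (Z D) := by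
      rw [hw, ip_sub_right', adj_Tr F hD hB hdiam v hw', ← ip_prL, prL_of_mem hw']
    rw [hbw, k2] at k1
    rw [hpq, hpq, phi_zero]
    linarith)
  have c1 := cont_fa F h.sfa h.fa
  have c2 := cont_fa F h.sfa hY.fa
  have c3 := cont_fa F hY.sfa h.fa
  have c4 := cont_fa F hY.sfa hY.fa
  have hsplit : ∀ t, ip (gm e (v, t)) (η t + (-1 : ℝ) • XX δ b (phi F (v, t)))
      (Z t + (-1 : ℝ) • XX X b (phi F (v, t))) =
      (ip (gm e (v, t)) (η t) (Z t) - ip (gm e (v, t)) (η t) (XX X b (phi F (v, t)))) -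
      (ip (gm e (v, t)) (XX δ b (phi F (v, t))) (Z t) -
        ip (gm e (v, t)) (XX δ b (phi F (v, t))) (XX X b (phi F (v, t)))) := by
    intro t
    rw [hpq, hqp, hqp]
    ring
  simp only [hsplit] at h1
  have c12 : Continuous fun t => ip (gm e (v, t)) (η t) (Z t) -
      ip (gm e (v, t)) (η t) (XX X b (phi F (v, t))) := c1.sub c2
  have c34 : Continuous fun t => ip (gm e (v, t)) (XX δ b (phi F (v, t))) (Z t) -
      ip (gm e (v, t)) (XX δ b (phi F (v, t))) (XX X b (phi F (v, t))) := c3.sub c4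
  rw [intervalIntegral.integral_sub (c12.intervalIntegrable _ _) (c34.intervalIntegrable _ _),
    intervalIntegral.integral_sub (c1.intervalIntegrable _ _) (c2.intervalIntegrable _ _),
    intervalIntegral.integral_sub (c3.intervalIntegrable _ _) (c4.intervalIntegrable _ _)] at h1
  have h2 := horth b hb
  have h3 : ∫ t in (0 : ℝ)..(2 * D), ip (gm e (v, t)) (XX δ b (phi F (v, t))) (Z t) = 0 := by
    rw [← h.green hY]
    exact h2
  have h4 := hf.neg v hb
  rw [inner_Qm_self F (fun i => (hf.df i).fld) (fun i => (hf.df i).sfld)] at h4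
  have h5 : nI F D (XX δ b) (XX X b) v =
      ∫ t in (0 : ℝ)..(2 * D), ip (gm e (v, t)) (XX δ b (phi F (v, t))) (XX X b (phi F (v, t))) :=
    rfl
  rw [h5] at h4
  have h6 := hf.eps_pos v
  have h7 : 0 ≤ 2 * ε * ‖b‖ ^ 2 := by positivity
  linarith

end

end Vale.Agent.P231.S3E2
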