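import Vale.Agent.P231.S3E2.Per

/-!
# P231, stage 3, S3-A: negativity of the second variation on `(a, z)`, pointwise
-/

set_option maxSynthPendingDepth 3
set_option linter.unusedSectionVars false
set_option linter.unusedVariables false

open Bundle Manifold Set Filter Module MeasureTheory
open scoped ContDiff Manifold Topology

namespace Vale.Agent.P231.S3E2

noncomputable section

open Vale.Agent.P234 Vale.Agent.P231 Vale.Agent.P231.Fm Vale.Agent.P231.W Vale.Agent.P231.WR
open Vale.Agent.P231.H775 Vale.Agent.P231.WC Vale.Agent.P231.S2N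

variable {E : Type*} [NormedAddCommGroup E] [NormedSpace ℝ E]
  {M : Type*} [MetricSpace M] [ChartedSpace E M]
  [RiemannianBundle (fun x : M => TangentSpace 𝓘(ℝ, E) x)]
  {e : ∀ x : M, TangentSpace 𝓘(ℝ, E) x → M}
  [FiniteDimensional ℝ E] [IsManifold 𝓘(ℝ, E) ∞ M]
  [IsContMDiffRiemannianBundle 𝓘(ℝ, E) ∞ E (fun x : M => TangentSpace 𝓘(ℝ, E) x)]
  [CompactSpace M] [ConnectedSpace M] [IsRiemannianManifold 𝓘(ℝ, E) M]

variable {D : ℝ} {v : UT E M} {F : Facts e}
  {ι : Type} [Fintype ι] [DecidableEq ι]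

/-- the source of the first odd mode -/
def Uz (F : Facts e) (D : ℝ) (W : ι → UT E M → E) (v : UT E M) (x y : EuclideanSpace ℝ ι)
    (s : ℝ) : E :=
  ∑ i, (Real.cos (Real.pi / (2 * D) * s) * x i - Real.sin (Real.pi / (2 * D) * s) * y i) •
    W i (phi F (v, s))

/-- the data of the inverse adjoint fields -/
structure IsW (F : Facts e) (hD : 0 < D) (hB : InjGE e D) (hdiam : ∀ p q : M, dist p q ≤ D)
    (X δ : ι → UT E M → E) (ε : ℝ) (W : ι → UT E M → E) : Prop where
  ls : ∀ i, LS e D (W i)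
  ip_eq : ∀ v b i, Pm F D X δ ε v b = b →
    ip (foot v) (W i v) (Th0 F hD hB hdiam (XX X b) v) = b i

theorem ip_sum_left2 {κ : Type*} (s : Finset κ) (x : M) (f : κ → E) (b : E) :
    ip x (∑ i ∈ s, f i) b = ∑ i ∈ s, ip x (f i) b :=
  sum_inner (𝕜 := ℝ) (E := TangentSpace 𝓘(ℝ, E) x) s f b

theorem sc_Uz {W : ι → UT E M → E} (hW : ∀ i, LS e D (W i)) (v : UT E M)
    (x y : EuclideanSpace ℝ ι) : Sc F D v (Uz F D W v x y) := by
  have h := Sc.sum (F := F) (D := D) (v := v) Finset.univ (U := fun i t =>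
    (Real.cos (Real.pi / (2 * D) * t) * x i - Real.sin (Real.pi / (2 * D) * t) * y i) •
      W i (phi F (v, t))) (fun i => (Sc.of_LS (hW i) v).smul (c := fun t =>
      Real.cos (Real.pi / (2 * D) * t) * x i - Real.sin (Real.pi / (2 * D) * t) * y i) (by
        have h1 : ContDiff ℝ ∞ (fun t : ℝ => Real.pi / (2 * D) * t) := by fun_prop
        exact ((Real.contDiff_cos.comp h1).mul contDiff_const).sub
          ((Real.contDiff_sin.comp h1).mul contDiff_const)))
  exact h

theorem Uz_anti (hD : 0 < D) (hB : InjGE e D) (hdiam : ∀ p q : M, dist p q ≤ D)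
    (W : ι → UT E M → E) (v : UT E M) (x y : EuclideanSpace ℝ ι) (t : ℝ) :
    Uz F D W v x y (t + 2 * D) = (-1 : ℝ) • Uz F D W v x y t := by
  have k := Vale.Agent.P231.W.phi_per F hD hB hdiam (phi F (v, t))
  rw [phi_add] at k
  have e1 : Real.pi / (2 * D) * (t + 2 * D) = Real.pi / (2 * D) * t + Real.pi := by
    field_simp
  unfold Uz
  rw [k, e1, Real.cos_add_pi, Real.sin_add_pi, Finset.smul_sum]
  refine Finset.sum_congr rfl fun i _ => ?_
  rw [smul_smul]
  congr 1
  ring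

variable {hD : 0 < D} {hB : InjGE e D} {hdiam : ∀ p q : M, dist p q ≤ D} {l : ℕ}
  {X δ : ι → UT E M → E} {ε : ℝ} {W : ι → UT E M → E}

/-- the pairing of the source with the boundary values of the fields -/
theorem ip_Uz (hW : IsW F hD hB hdiam X δ ε W) (v : UT E M) (x y b : EuclideanSpace ℝ ι)
    (hb : Pm F D X δ ε v b = b) (t : ℝ) :
    ip (gm e (v, t)) (Uz F D W v x y t) (Th0 F hD hB hdiam (XX X b) (phi F (v, t))) =
      Real.cos (Real.pi / (2 * D) * t) * (∑ i, x i * b i) +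
        Real.sin (Real.pi / (2 * D) * t) * (-∑ i, y i * b i) := by
  have hb' : Pm F D X δ ε (phi F (v, t)) b = b := by rw [Fam.Pm_phi F hD hB hdiam, hb]
  have h1 : ip (gm e (v, t)) (Uz F D W v x y t) (Th0 F hD hB hdiam (XX X b) (phi F (v, t))) =
      ∑ i, ip (gm e (v, t)) ((Real.cos (Real.pi / (2 * D) * t) * x i -
        Real.sin (Real.pi / (2 * D) * t) * y i) • W i (phi F (v, t)))
        (Th0 F hD hB hdiam (XX X b) (phi F (v, t))) := ip_sum_left2 _ _ _ _
  rw [h1, ← Finset.sum_neg_distrib, Finset.mul_sum, Finset.mul_sum, ← Finset.sum_add_distrib]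
  refine Finset.sum_congr rfl fun i _ => ?_
  have h2 : ip (gm e (v, t)) (W i (phi F (v, t))) (Th0 F hD hB hdiam (XX X b) (phi F (v, t))) =
      b i := hW.ip_eq (phi F (v, t)) b i hb'
  rw [ip_smul_left', h2]
  ring

theorem Uz_ne (hW : IsW F hD hB hdiam X δ ε W) (v : UT E M) {x y : EuclideanSpace ℝ ι}
    (hx : Pm F D X δ ε v x = x) (hy : Pm F D X δ ε v y = y) (hne : x ≠ 0 ∨ y ≠ 0) :
    Uz F D W v x y 0 ≠ 0 ∨ Uz F D W v x y D ≠ 0 := by
  have hz : ∀ (p : M) (a : E), ip p (0 : E) a = 0 := fun p a =>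
    inner_zero_left (E := TangentSpace 𝓘(ℝ, E) p) (𝕜 := ℝ) _
  have hsq : ∀ b : EuclideanSpace ℝ ι, b ≠ 0 → 0 < ∑ i, b i * b i := by
    intro b hb
    have h1 : ∑ i, b i * b i = ‖b‖ ^ 2 := by
      rw [EuclideanSpace.real_norm_sq_eq]
      exact Finset.sum_congr rfl fun i _ => by ring
    rw [h1]
    have := norm_pos_iff.2 hb
    positivity
  rcases hne with h | h
  · left
    intro h0
    have k := ip_Uz hW v x y x hx 0
    rw [h0, hz, mul_zero, Real.cos_zero, Real.sin_zero] at k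
    have := hsq x h
    linarith
  · right
    intro h0
    have k := ip_Uz hW v x y y hy D
    have e1 : Real.pi / (2 * D) * D = Real.pi / 2 := by
      field_simp
    rw [h0, hz, e1, Real.cos_pi_div_two, Real.sin_pi_div_two] at k
    have := hsq y h
    linarith

/-- the field -/
def Zf (F : Facts e) (D : ℝ) (X W : ι → UT E M → E) (v : UT E M) (a x y : EuclideanSpace ℝ ι)
    (t : ℝ) : E :=
  XX X a (phi F (v, t)) + zF F D v (Uz F D W v x y) t

theorem fa_Zf (hX : ∀ i, Fld (X i)) (hW : ∀ i, LS e D (W i)) (v : UT E M)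
    (a x y : EuclideanSpace ℝ ι) (t : ℝ) : FA e v (Zf F D X W v a x y) t := by
  have h1 : Fld (XX X a) := Fld.sum Finset.univ fun i => (hX i).const_smul (a i)
  have h2 : ∀ t, FA e v (zF F D v (Uz F D W v x y)) t := fa_zF (sc_Uz (F := F) hW v x y).fa
  exact (h1.fa F v t).add (h2 t)

/-- **negativity of the second variation of the energy over the double period** -/
theorem neg_at
    (hP : ∀ x y : M, dist x y = D → finrank ℝ (H775.Pl e D x y) = l + 1)
    (hf : Fam F hD hB hdiam l X δ ε) (hW : IsW F hD hB hdiam X δ ε W) (v : UT E M)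
    {a x y : EuclideanSpace ℝ ι} (ha : Pm F D X δ ε v a = a) (hx : Pm F D X δ ε v x = x)
    (hy : Pm F D X δ ε v y = y) (hne : a ≠ 0 ∨ x ≠ 0 ∨ y ≠ 0) :
    deriv (enT e (4 * D) v (Zf F D X W v a x y)) 0 = 0 ∧
      deriv (deriv (enT e (4 * D) v (Zf F D X W v a x y))) 0 < 0 := by
  have hS : Sc F D v (Uz F D W v x y) := sc_Uz hW.ls v x y
  have hanti := Uz_anti (F := F) hD hB hdiam W v x y
  have hY : LF F hD hB hdiam v (fun t => XX X a (phi F (v, t))) (fun t => XX δ a (phi F (v, t))) :=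
    LF.of_DF (DF.xx hf.df a) v
  obtain ⟨k1, k2⟩ := deriv2_sum hP hY hS hanti
  refine ⟨k1, ?_⟩
  have h4 := hf.neg v ha
  rw [inner_Qm_self F (fun i => (hf.df i).fld) (fun i => (hf.df i).sfld)] at h4
  have h5 : nI F D (XX δ a) (XX X a) v =
      ∫ t in (0 : ℝ)..(2 * D), ip (gm e (v, t)) (XX δ a (phi F (v, t))) (XX X a (phi F (v, t))) :=
    rfl
  rw [h5] at h4
  have h6 := hf.eps_pos v
  set A := ∫ t in (0 : ℝ)..(2 * D), ip (gm e (v, t)) (XX δ a (phi F (v, t)))
    (XX X a (phi F (v, t))) with hA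
  set B := ∫ t in (0 : ℝ)..(2 * D), ip (gm e (v, t)) (dF F hD hB hdiam v (Uz F D W v x y) t)
    (zF F D v (Uz F D W v x y) t) with hB'
  have hAn : 0 ≤ A := by nlinarith only [h4, h6, sq_nonneg ‖a‖]
  have hzero : x = 0 ∧ y = 0 → B = 0 := by
    rintro ⟨rfl, rfl⟩
    have e1 : ∀ s, Uz F D W v (0 : EuclideanSpace ℝ ι) 0 s = 0 := by
      intro s
      unfold Uz
      simp
    have e2 : ∀ t, zF F D v (Uz F D W v (0 : EuclideanSpace ℝ ι) 0) t = 0 := by
      intro t
      have k := zF_smul (F := F) (D := D) (v := v) 0 (Uz F D W v (0 : EuclideanSpace ℝ ι) 0) t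
      have e3 : (fun s => (0 : ℝ) • Uz F D W v (0 : EuclideanSpace ℝ ι) 0 s) =
          Uz F D W v (0 : EuclideanSpace ℝ ι) 0 := by
        funext s
        rw [zero_smul, e1]
      rw [e3, zero_smul] at k
      exact k
    rw [hB']
    simp only [e2]
    have hz : ∀ (p : M) (a : E), ip p a (0 : E) = 0 := fun p a =>
      inner_zero_right (E := TangentSpace 𝓘(ℝ, E) p) (𝕜 := ℝ) _
    simp only [hz]
    simp
  have hBp : x ≠ 0 ∨ y ≠ 0 → 0 < B := fun hxy =>
    int_pos hP hf hS hanti (Uz_ne hW v hx hy hxy) fun b hb => ⟨_, _, ip_Uz hW v x y b hb⟩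
  have hfin : 0 < A + B := by
    by_cases hxy : x ≠ 0 ∨ y ≠ 0
    · have := hBp hxy
      linarith
    · push Not at hxy
      have h7 : a ≠ 0 := by
        rcases hne with h | h | h
        · exact h
        · exact absurd hxy.1 h
        · exact absurd hxy.2 h
      have h8 := norm_pos_iff.2 h7
      rw [hzero hxy, add_zero]
      have h9 : 0 < 2 * ε * ‖a‖ ^ 2 := by positivity
      linarith
  have k3 : (1 / 2 : ℝ) * deriv (deriv (enT e (4 * D) v (Zf F D X W v a x y))) 0 =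
      -(2 * A + 2 * B) := k2
  linarith

end

end Vale.Agent.P231.S3E2
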