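import Vale.Agent.P231.S3E2.Idx

/-!
# P231, stage 3, S3-A: the pairing of a superposition with its source
-/

set_option maxSynthPendingDepth 3
set_option linter.unusedSectionVars false
set_option linter.unusedVariables false

open Bundle Manifold Set Filter Module MeasureTheory
open scoped ContDiff Manifold Topology

namespace Vale.Agent.P231.S3E2

noncomputable section

open Vale.Agent.P234 Vale.Agent.P231 Vale.Agent.P231.Fm Vale.Agent.P231.W Vale.Agent.P231.WR
open Vale.Agent.P231.H775 Vale.Agent.P231.WC Vale.Agent.P231.S2N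

variable {E : Type*} [NormedAddCommGroup E] [NormedSpace ℝ E]
  {M : Type*} [MetricSpace M] [ChartedSpace E M]
  [RiemannianBundle (fun x : M => TangentSpace 𝓘(ℝ, E) x)]
  {e : ∀ x : M, TangentSpace 𝓘(ℝ, E) x → M}
  [FiniteDimensional ℝ E] [IsManifold 𝓘(ℝ, E) ∞ M]
  [IsContMDiffRiemannianBundle 𝓘(ℝ, E) ∞ E (fun x : M => TangentSpace 𝓘(ℝ, E) x)]
  [CompactSpace M] [ConnectedSpace M] [IsRiemannianManifold 𝓘(ℝ, E) M]

variable {D : ℝ} {F : Facts e} {v : UT E M}

/-- **the pairing of a source with a superposition**, pointwise -/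
theorem ip_dF_zF (hD : 0 < D) (hB : InjGE e D) (hdiam : ∀ p q : M, dist p q ≤ D) {l : ℕ}
    (hP : ∀ x y : M, dist x y = D → finrank ℝ (H775.Pl e D x y) = l + 1)
    {U U' : ℝ → E} (h : Sc F D v U) (h' : Sc F D v U') (t : ℝ) :
    ip (gm e (v, t)) (dF F hD hB hdiam v U t) (zF F D v U' t) =
      ∫ r in (0 : ℝ)..D, (ip (gm e (v, t)) (U t) (Jc e (phi F (v, t - r)) (U' (t - r)) r) -
        ip (gm e (v, t - D)) (U (t - D)) (Jc e (phi F (v, t - r)) (U' (t - r)) (r - D))) := by
  rw [ip_zF h'.fa]
  refine intervalIntegral.integral_congr fun r _ => ?_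
  have k1 : ip (gm e (v, t)) (dF F hD hB hdiam v U t) (Jc e (phi F (v, t - r)) (U' (t - r)) r) =
      ip (gm e (v, t)) (U t) (Jc e (phi F (v, t - r)) (U' (t - r)) r) -
      ip (gm e (v, t)) (Tr F hD hB hdiam (phi F (v, t - D)) (U (t - D)))
        (Jc e (phi F (v, t - r)) (U' (t - r)) r) := ip_sub_left' _ _ _ _
  have k2 := wronskian_Jc F hD hB hdiam hP v (t - D) (h.mem (t - D)) (t - r) (U' (t - r))
  have e1 : t - D + D = t := sub_add_cancel t D
  have e2 : t - (t - r) = r := sub_sub_cancel t r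
  have e3 : t - D - (t - r) = r - D := by ring
  rw [e1, e2, e3] at k2
  refine k1.trans ?_
  rw [k2]

theorem fa_dF (hD : 0 < D) (hB : InjGE e D) (hdiam : ∀ p q : M, dist p q ≤ D) {l : ℕ}
    (hP : ∀ x y : M, dist x y = D → finrank ℝ (H775.Pl e D x y) = l + 1)
    {U : ℝ → E} (h : ∀ t, FA e v U t) (t : ℝ) : FA e v (dF F hD hB hdiam v U) t := by
  have hs : Sm (fun t : ℝ => t - D) t := Sm.of_contDiff (contDiff_id.sub contDiff_const) _
  have hu : (dUT E M).At (fun t : ℝ => phi F (v, t - D)) t :=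
    map_phi F (u := fun t : ℝ => (v, t - D)) ⟨H583.at_const v _, hs⟩
  have ha : (dTM E M).At (fun t : ℝ => tb (foot (phi F (v, t - D))) (U (t - D))) t := by
    have k : ∀ᶠ s in 𝓝 t, SmV (fun t : ℝ => gm e (v, t - D)) (fun t : ℝ => (U (t - D) : E)) s := by
      refine Eventually.of_forall fun s => ?_
      exact SmV.comp (f := fun t => gm e (v, t)) (u := fun t => (U t : E)) (h := fun t : ℝ => t - D)
        (h (s - D)).self_of_nhds (contDiffAt_id.sub contDiffAt_const)
    exact k
  have h3 := at_Tr F hD hB hdiam hP hu ha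
  have h4 : (dTM E M).At (fun t : ℝ => tb (gm e (v, t))
      (Tr F hD hB hdiam (phi F (v, t - D)) (U (t - D)))) t := by
    have k : (fun t : ℝ => tb (gm e (v, t)) (Tr F hD hB hdiam (phi F (v, t - D)) (U (t - D)))) =
        fun t : ℝ => tb (gm e (phi F (v, t - D), D))
          (Tr F hD hB hdiam (phi F (v, t - D)) (U (t - D))) := by
      funext t
      refine tb_congr ?_ rfl
      rw [gm_phi F, sub_add_cancel]
    rw [k]
    exact h3
  have h4' : ∀ᶠ s in 𝓝 t, SmV (fun t : ℝ => gm e (v, t))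
      (fun t : ℝ => (Tr F hD hB hdiam (phi F (v, t - D)) (U (t - D)) : E)) s := h4
  filter_upwards [h t, h4'] with s h5 h6
  have h7 := h5.add (SmV.smul (contDiffAt_const (c := (-1 : ℝ))) h6)
  refine ContMDiffAt.congr_of_eventuallyEq h7 ?_
  refine Eventually.of_forall fun t' => tb_congr rfl ?_
  change U t' - Tr F hD hB hdiam (phi F (v, t' - D)) (U (t' - D)) =
    U t' + (-1 : ℝ) • Tr F hD hB hdiam (phi F (v, t' - D)) (U (t' - D))
  rw [neg_smul, one_smul, sub_eq_add_neg]

/-- the superpositions of periodic sections -/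
theorem LF.of_Sc {hD : 0 < D} {hB : InjGE e D} {hdiam : ∀ p q : M, dist p q ≤ D} {l : ℕ}
    (hP : ∀ x y : M, dist x y = D → finrank ℝ (H775.Pl e D x y) = l + 1)
    {U : ℝ → E} (h : Sc F D v U) (hper : ∀ t, U (t + 2 * D) = U t) :
    LF F hD hB hdiam v (zF F D v U) (dF F hD hB hdiam v U) where
  fa := fa_zF h.fa
  sfa := fa_dF hD hB hdiam hP h.fa
  perp := perp_zF h
  per t := by
    unfold zF
    refine intervalIntegral.integral_congr fun r _ => ?_
    have e1 : t + 2 * D - r = t - r + 2 * D := by ring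
    have k := W.phi_per F hD hB hdiam (phi F (v, t - r))
    rw [phi_add] at k
    change Jc e (phi F (v, t + 2 * D - r)) (U (t + 2 * D - r)) r = _
    rw [e1, k, hper]
  mem t := by
    refine Submodule.sub_mem _ (h.mem t) ?_
    have h1 := Tr_mem F hD hB hdiam (phi F (v, t - D)) (U (t - D))
    rw [phi_add, sub_add_cancel] at h1
    exact h1
  half t := by
    have h1 := Tr_Tr_of_mem F hD hB hdiam (h.mem (t - D))
    rw [phi_add, sub_add_cancel] at h1
    have h2 : U (t + D) = U (t - D) := by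
      rw [← hper (t - D)]
      congr 1
      ring
    unfold dF
    rw [add_sub_cancel_right, ← TrL_apply, ← TrL_apply, map_sub, TrL_apply, TrL_apply, h1, h2]
    abel
  je := je_zF hD hB hdiam h

/-- the pairing of the source with a global field -/
theorem int_dF_fld (hD : 0 < D) (hB : InjGE e D) (hdiam : ∀ p q : M, dist p q ≤ D) {l : ℕ}
    (hP : ∀ x y : M, dist x y = D → finrank ℝ (H775.Pl e D x y) = l + 1)
    {U : ℝ → E} (h : Sc F D v U) (hper : ∀ t, U (t + 2 * D) = U t) {A : UT E M → E} (hA : Fld A) :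
    ∫ t in (0 : ℝ)..(2 * D), ip (gm e (v, t)) (dF F hD hB hdiam v U t) (A (phi F (v, t))) =
      ∫ t in (0 : ℝ)..(2 * D), ip (gm e (v, t)) (U t) (Th0 F hD hB hdiam A (phi F (v, t))) := by
  have hAf := hA.fa F v
  have hTf := (fld_Th0 F hD hB hdiam hP hA).fa F v
  set f : ℝ → ℝ := fun t => ip (gm e (v, t + D)) (Tr F hD hB hdiam (phi F (v, t)) (U t))
    (A (phi F (v, t + D))) with hf
  have h1 : ∀ t, ip (gm e (v, t)) (U t) (Th0 F hD hB hdiam A (phi F (v, t))) =
      ip (gm e (v, t)) (U t) (A (phi F (v, t))) - f t := by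
    intro t
    have k := ip_Th0 F hD hB hdiam A (phi F (v, t)) (h.mem t)
    rw [gm_phi F, phi_add] at k
    exact k
  have hc0 := cont_fa F h.fa hAf
  have hc1 := cont_fa F h.fa hTf
  have hfc : Continuous f := by
    have k : f = fun t => ip (gm e (v, t)) (U t) (A (phi F (v, t))) -
        ip (gm e (v, t)) (U t) (Th0 F hD hB hdiam A (phi F (v, t))) := by
      funext t
      rw [h1]
      ring
    rw [k]
    exact hc0.sub hc1
  have h2 : ∀ t, ip (gm e (v, t)) (dF F hD hB hdiam v U t) (A (phi F (v, t))) =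
      ip (gm e (v, t)) (U t) (A (phi F (v, t))) - f (t - D) := by
    intro t
    have k : ip (gm e (v, t)) (dF F hD hB hdiam v U t) (A (phi F (v, t))) =
        ip (gm e (v, t)) (U t) (A (phi F (v, t))) -
        ip (gm e (v, t)) (Tr F hD hB hdiam (phi F (v, t - D)) (U (t - D))) (A (phi F (v, t))) :=
      ip_sub_left' _ _ _ _
    rw [k]
    simp only [hf]
    rw [sub_add_cancel]
  have hfper : Function.Periodic f (2 * D) := by
    intro t
    have k := W.phi_per F hD hB hdiam (phi F (v, t))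
    rw [phi_add] at k
    have k' := W.phi_per F hD hB hdiam (phi F (v, t + D))
    rw [phi_add] at k'
    have e1 : t + 2 * D + D = t + D + 2 * D := by ring
    have k2 : gm e (v, t + D + 2 * D) = gm e (v, t + D) := congrArg foot k'
    simp only [hf]
    rw [e1, k, k', k2, hper]
  have h3 : ∫ t in (0 : ℝ)..(2 * D), f (t - D) = ∫ t in (0 : ℝ)..(2 * D), f t := by
    rw [intervalIntegral.integral_comp_sub_right]
    have h4 := hfper.intervalIntegral_add_eq (0 - D) 0
    rw [zero_add] at h4
    rw [← h4]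
    congr 1
    ring
  simp only [h1, h2]
  have hfc' : Continuous fun t => f (t - D) := hfc.comp (continuous_id.sub continuous_const)
  rw [intervalIntegral.integral_sub (hc0.intervalIntegrable _ _) (hfc'.intervalIntegrable _ _),
    intervalIntegral.integral_sub (hc0.intervalIntegrable _ _) (hfc.intervalIntegrable _ _), h3]

end

end Vale.Agent.P231.S3E2
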