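import Vale.Agent.P231.S3E2.Pair1
import Vale.Agent.P231.S3E2.Four

/-!
# P231, stage 3, S3-A: the index form of a superposition along one closed geodesic, positivity of
the odd part
-/

set_option maxSynthPendingDepth 3
set_option linter.unusedSectionVars false
set_option linter.unusedVariables false

open Bundle Manifold Set Filter Module MeasureTheory
open scoped ContDiff Manifold Topology

namespace Vale.Agent.P231.S3E2

noncomputable section

open Vale.Agent.P234 Vale.Agent.P231 Vale.Agent.P231.Fm Vale.Agent.P231.W Vale.Agent.P231.WR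
open Vale.Agent.P231.H775 Vale.Agent.P231.WC Vale.Agent.P231.S2N

/-! ### calculus -/

/-- exchange of the integrals over a periodic function -/
theorem swap_per {b : ℝ × ℝ → ℝ} (hb : Continuous b) {D : ℝ} (T : ℝ)
    (hper : ∀ t r, b (t + T, r) = b (t, r)) :
    ∫ t in (0 : ℝ)..T, ∫ r in (0 : ℝ)..D, b (t - r, r) =
      ∫ r in (0 : ℝ)..D, ∫ t in (0 : ℝ)..T, b (t, r) := by
  have hint : ∀ f : ℝ × ℝ → ℝ, Continuous f → ∀ a b c d : ℝ,
      IntegrableOn f (uIoc a b ×ˢ uIoc c d) := by
    intro f hf a b c d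
    have h1 : IntegrableOn f (uIcc a b ×ˢ uIcc c d) :=
      hf.continuousOn.integrableOn_compact (isCompact_uIcc.prod isCompact_uIcc)
    exact h1.mono_set (prod_mono uIoc_subset_uIcc uIoc_subset_uIcc)
  have h1 : ∫ t in (0 : ℝ)..T, ∫ r in (0 : ℝ)..D, b (t - r, r) =
      ∫ r in (0 : ℝ)..D, ∫ t in (0 : ℝ)..T, b (t - r, r) :=
    intervalIntegral_intervalIntegral_swap (F := fun t r => b (t - r, r))
      (hint (fun p => b (p.1 - p.2, p.2)) (hb.comp (by fun_prop)) 0 T 0 D)
  rw [h1]
  refine intervalIntegral.integral_congr fun r _ => ?_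
  have h3 := intervalIntegral.integral_comp_sub_right (a := 0) (b := T) (fun t => b (t, r)) r
  refine h3.trans ?_
  have h4 : Function.Periodic (fun t => b (t, r)) T := fun t => hper t r
  have h5 := h4.intervalIntegral_add_eq (0 - r) 0
  rw [zero_add] at h5
  rw [← h5]
  congr 1
  ring

theorem contDiff_par {f : ℝ × ℝ → ℝ} (hf : ContDiff ℝ ∞ f) (c : ℝ) :
    ContDiff ℝ ∞ (fun x => ∫ t in (0 : ℝ)..c, f (x, t)) := by
  have h1 : ((Dif.lin ℝ).prod (Dif.lin ℝ)).Map (Dif.lin ℝ) f := by
    intro E' _ _ _ u x hu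
    exact Sm.comp (f := f) (g := u) (Sm.of_contDiff hf _) (Sm.prodMk hu.1 hu.2)
  have h2 : (Dif.lin ℝ).Map (Dif.lin ℝ) (fun x : ℝ => ∫ t in (0 : ℝ)..c, f (x, t)) :=
    H766.map_integral h1 c
  refine contDiff_iff_contDiffAt.2 fun t => ?_
  have h3 : Sm (fun x : ℝ => ∫ t in (0 : ℝ)..c, f (x, t)) t :=
    h2 (u := fun x : ℝ => x) (Sm.of_contDiff contDiff_id t)
  exact h3.contDiffAt

theorem int_cos_even {D : ℝ} (hD : 0 < D) (k : ℕ) (hk : k ≠ 0) :
    ∫ t in (0 : ℝ)..(2 * D), Real.cos (2 * k * (Real.pi / (2 * D) * t)) = 0 := by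
  have hpi := Real.pi_pos
  have hk' : (0 : ℝ) < k := Nat.cast_pos.2 (Nat.pos_of_ne_zero hk)
  set m : ℝ := 2 * k * (Real.pi / (2 * D)) with hm
  have hm0 : m ≠ 0 := by rw [hm]; positivity
  have h1 : ∀ t : ℝ, HasDerivAt (fun t : ℝ => m⁻¹ * Real.sin (m * t))
      (Real.cos (2 * k * (Real.pi / (2 * D) * t))) t := by
    intro t
    have h := (hasDerivAt_sin_mul m t).const_mul m⁻¹
    refine h.congr_deriv ?_
    have e1 : 2 * (k : ℝ) * (Real.pi / (2 * D) * t) = m * t := by rw [hm]; ring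
    rw [e1]
    field_simp
  rw [intervalIntegral.integral_eq_sub_of_hasDerivAt (fun t _ => h1 t)
    ((by fun_prop : Continuous fun t : ℝ => Real.cos (2 * k * (Real.pi / (2 * D) * t))
      ).intervalIntegrable _ _)]
  have e2 : m * (2 * D) = (2 * k : ℕ) * Real.pi := by
    rw [hm]
    push_cast
    field_simp
  rw [e2, Real.sin_nat_mul_pi, mul_zero, mul_zero, Real.sin_zero, mul_zero, sub_zero]

theorem int_sin_even {D : ℝ} (hD : 0 < D) (k : ℕ) (hk : k ≠ 0) :
    ∫ t in (0 : ℝ)..(2 * D), Real.sin (2 * k * (Real.pi / (2 * D) * t)) = 0 := by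
  have hpi := Real.pi_pos
  have hk' : (0 : ℝ) < k := Nat.cast_pos.2 (Nat.pos_of_ne_zero hk)
  set m : ℝ := 2 * k * (Real.pi / (2 * D)) with hm
  have hm0 : m ≠ 0 := by rw [hm]; positivity
  have h1 : ∀ t : ℝ, HasDerivAt (fun t : ℝ => -m⁻¹ * Real.cos (m * t))
      (Real.sin (2 * k * (Real.pi / (2 * D) * t))) t := by
    intro t
    have h := (hasDerivAt_cos_mul m t).const_mul (-m⁻¹)
    refine h.congr_deriv ?_
    have e1 : 2 * (k : ℝ) * (Real.pi / (2 * D) * t) = m * t := by rw [hm]; ring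
    rw [e1]
    field_simp
  rw [intervalIntegral.integral_eq_sub_of_hasDerivAt (fun t _ => h1 t)
    ((by fun_prop : Continuous fun t : ℝ => Real.sin (2 * k * (Real.pi / (2 * D) * t))
      ).intervalIntegrable _ _)]
  have e2 : m * (2 * D) = (k : ℝ) * (2 * Real.pi) := by
    rw [hm]
    field_simp
  rw [e2, Real.cos_nat_mul_two_pi, mul_zero m, Real.cos_zero, sub_self]

/-- orthogonality of the odd modes to the first one -/
theorem int_mode {D : ℝ} (hD : 0 < D) (j : ℕ) (hj : j ≠ 0) (a b : ℝ) :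
    (∫ t in (0 : ℝ)..(2 * D), Real.cos ((2 * j + 1) * (Real.pi / (2 * D) * t)) *
      (Real.cos (Real.pi / (2 * D) * t) * a + Real.sin (Real.pi / (2 * D) * t) * b)) = 0 ∧
    (∫ t in (0 : ℝ)..(2 * D), Real.sin ((2 * j + 1) * (Real.pi / (2 * D) * t)) *
      (Real.cos (Real.pi / (2 * D) * t) * a + Real.sin (Real.pi / (2 * D) * t) * b)) = 0 := by
  have c1 := int_cos_even hD j hj
  have c2 := int_cos_even hD (j + 1) (Nat.succ_ne_zero j)
  have s1 := int_sin_even hD j hj
  have s2 := int_sin_even hD (j + 1) (Nat.succ_ne_zero j)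
  have hi : ∀ g : ℝ → ℝ, Continuous g → IntervalIntegrable g volume 0 (2 * D) := fun g hg =>
    hg.intervalIntegrable _ _
  have k1 : Continuous fun t : ℝ => Real.cos (2 * (j : ℝ) * (Real.pi / (2 * D) * t)) := by fun_prop
  have k2 : Continuous fun t : ℝ => Real.cos (2 * ((j + 1 : ℕ) : ℝ) * (Real.pi / (2 * D) * t)) := by
    fun_prop
  have k3 : Continuous fun t : ℝ => Real.sin (2 * (j : ℝ) * (Real.pi / (2 * D) * t)) := by fun_prop
  have k4 : Continuous fun t : ℝ => Real.sin (2 * ((j + 1 : ℕ) : ℝ) * (Real.pi / (2 * D) * t)) := by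
    fun_prop
  have hA : ∀ p q r s : ℝ, ∫ t in (0 : ℝ)..(2 * D),
      (p * Real.cos (2 * (j : ℝ) * (Real.pi / (2 * D) * t)) +
        q * Real.cos (2 * ((j + 1 : ℕ) : ℝ) * (Real.pi / (2 * D) * t)) +
        (r * Real.sin (2 * (j : ℝ) * (Real.pi / (2 * D) * t)) +
        s * Real.sin (2 * ((j + 1 : ℕ) : ℝ) * (Real.pi / (2 * D) * t)))) = 0 := by
    intro p q r s
    rw [intervalIntegral.integral_add (hi _ (by fun_prop)) (hi _ (by fun_prop)),
      intervalIntegral.integral_add (hi _ (by fun_prop)) (hi _ (by fun_prop)),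
      intervalIntegral.integral_add (hi _ (by fun_prop)) (hi _ (by fun_prop)),
      intervalIntegral.integral_const_mul, intervalIntegral.integral_const_mul,
      intervalIntegral.integral_const_mul, intervalIntegral.integral_const_mul, c1, c2, s1, s2]
    ring
  have e1 : ∀ x : ℝ, 2 * (j : ℝ) * x = (2 * j + 1) * x - x := fun x => by ring
  have e2 : ∀ x : ℝ, 2 * ((j + 1 : ℕ) : ℝ) * x = (2 * j + 1) * x + x := fun x => by
    push_cast
    ring
  constructor
  · refine Eq.trans (intervalIntegral.integral_congr fun t _ => ?_)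
      (hA (a / 2) (a / 2) (-b / 2) (b / 2))
    simp only [e1, e2, Real.cos_add, Real.cos_sub, Real.sin_add, Real.sin_sub]
    ring
  · refine Eq.trans (intervalIntegral.integral_congr fun t _ => ?_)
      (hA (b / 2) (-b / 2) (a / 2) (a / 2))
    simp only [e1, e2, Real.cos_add, Real.cos_sub, Real.sin_add, Real.sin_sub]
    ring

variable {E : Type*} [NormedAddCommGroup E] [NormedSpace ℝ E]
  {M : Type*} [MetricSpace M] [ChartedSpace E M]
  [RiemannianBundle (fun x : M => TangentSpace 𝓘(ℝ, E) x)]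
  {e : ∀ x : M, TangentSpace 𝓘(ℝ, E) x → M}
  [FiniteDimensional ℝ E] [IsManifold 𝓘(ℝ, E) ∞ M]
  [IsContMDiffRiemannianBundle 𝓘(ℝ, E) ∞ E (fun x : M => TangentSpace 𝓘(ℝ, E) x)]
  [CompactSpace M] [ConnectedSpace M] [IsRiemannianManifold 𝓘(ℝ, E) M]

variable {D : ℝ} {v : UT E M}

/-- the kernel of the index form -/
def kq (F : Facts e) (v : UT E M) (U : ℝ → E) (s r : ℝ) : ℝ :=
  ip (gm e (phi F (v, s), r)) (U (s + r))
    (dE e (foot (phi F (v, s))) (r • vec' (phi F (v, s))) (U s))

variable {F : Facts e}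

theorem contDiff_kq {U : ℝ → E} (hU : ∀ t, FA e v U t) :
    ContDiff ℝ ∞ (fun p : ℝ × ℝ => kq F v U p.1 p.2) := by
  refine contDiff_iff_contDiffAt.2 fun p => ?_
  have h1 : Sm (fun p : ℝ × ℝ => p.1) p := Sm.of_contDiff contDiff_fst _
  have h2 : Sm (fun p : ℝ × ℝ => p.2) p := Sm.of_contDiff contDiff_snd _
  have hb := at_Jcd (F := F) hU h1 h2
  have ha : (dTM E M).At (fun p : ℝ × ℝ => tb (gm e (phi F (v, p.1), p.2)) (U (p.1 + p.2))) p := by
    have k : ∀ᶠ s in 𝓝 p, SmV (fun p : ℝ × ℝ => gm e (phi F (v, p.1), p.2))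
        (fun p : ℝ × ℝ => (U (p.1 + p.2) : E)) s := by
      refine Eventually.of_forall fun s => ?_
      have k1 : SmV (fun p : ℝ × ℝ => gm e (v, p.1 + p.2)) (fun p : ℝ × ℝ => (U (p.1 + p.2) : E)) s :=
        SmV.comp (f := fun t => gm e (v, t)) (u := fun t => (U t : E))
          (h := fun p : ℝ × ℝ => p.1 + p.2) (hU (s.1 + s.2)).self_of_nhds
          (contDiffAt_fst.add contDiffAt_snd)
      refine ContMDiffAt.congr_of_eventuallyEq k1 ?_
      exact Eventually.of_forall fun s' => tb_congr (gm_phi F v s'.1 s'.2) rfl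
    exact k
  exact (sm_ip_tb ha hb).contDiffAt

theorem mul_kq (U : ℝ → E) (s r : ℝ) :
    ip (gm e (v, s + r)) (U (s + r)) (Jc e (phi F (v, s)) (U s) r) = r * kq F v U s r := by
  unfold kq
  rw [← ip_smul_right', gm_phi F]
  exact congrArg (fun a : E => ip (gm e (v, s + r)) (U (s + r)) a) (Jc_eq F _ _ _)

theorem kq_cut (U : ℝ → E) (c : ℝ → ℝ) (s r : ℝ) :
    kq F v (fun t => c t • U t) s r = c (s + r) * c s * kq F v U s r := by
  unfold kq
  have h1 : (dE e (foot (phi F (v, s))) (r • vec' (phi F (v, s))) (c s • U s) : E) =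
      c s • dE e (foot (phi F (v, s))) (r • vec' (phi F (v, s))) (U s) := dE_smul _ _ _ _ _
  rw [h1, ip_smul_left', ip_smul_right']
  ring

theorem kq_per (hD : 0 < D) (hB : InjGE e D) (hdiam : ∀ p q : M, dist p q ≤ D) {U : ℝ → E}
    {σ : ℝ} (hσ : σ * σ = 1) (hper : ∀ t, U (t + 2 * D) = σ • U t) (s r : ℝ) :
    kq F v U (s + 2 * D) r = kq F v U s r := by
  have k := W.phi_per F hD hB hdiam (phi F (v, s))
  rw [phi_add] at k
  have e1 : s + 2 * D + r = s + r + 2 * D := by ring
  unfold kq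
  rw [k, e1, hper, hper]
  have h1 : (dE e (foot (phi F (v, s))) (r • vec' (phi F (v, s))) (σ • U s) : E) =
      σ • dE e (foot (phi F (v, s))) (r • vec' (phi F (v, s))) (U s) := dE_smul _ _ _ _ _
  rw [h1, ip_smul_left', ip_smul_right', ← mul_assoc, hσ, one_mul]

/-- the averaged kernel -/
def kap (F : Facts e) (D : ℝ) (v : UT E M) (U : ℝ → E) (r : ℝ) : ℝ :=
  ∫ s in (0 : ℝ)..(2 * D), kq F v U s r

theorem contDiff_kap {U : ℝ → E} (hU : ∀ t, FA e v U t) : ContDiff ℝ ∞ (kap F D v U) := by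
  have h1 : ContDiff ℝ ∞ (fun p : ℝ × ℝ => kq F v U p.2 p.1) :=
    (contDiff_kq hU).comp (contDiff_snd.prodMk contDiff_fst)
  exact contDiff_par h1 (2 * D)

/-- **the index form of a superposition** -/
theorem int_dF_zF (hD : 0 < D) (hB : InjGE e D) (hdiam : ∀ p q : M, dist p q ≤ D) {l : ℕ}
    (hP : ∀ x y : M, dist x y = D → finrank ℝ (H775.Pl e D x y) = l + 1)
    {U : ℝ → E} (h : Sc F D v U) {σ : ℝ} (hσ : σ * σ = 1) (hper : ∀ t, U (t + 2 * D) = σ • U t) :
    ∫ t in (0 : ℝ)..(2 * D), ip (gm e (v, t)) (dF F hD hB hdiam v U t) (zF F D v U t) =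
      ∫ r in (0 : ℝ)..D, r * (kap F D v U r + kap F D v U (-r)) := by
  set b : ℝ × ℝ → ℝ := fun p => p.2 * kq F v U p.1 p.2 - (p.2 - D) * kq F v U p.1 (p.2 - D) with hb
  have hkc : Continuous fun p : ℝ × ℝ => kq F v U p.1 p.2 := (contDiff_kq h.fa).continuous
  have hkc' : Continuous fun p : ℝ × ℝ => kq F v U p.1 (p.2 - D) :=
    hkc.comp (continuous_fst.prodMk (continuous_snd.sub continuous_const))
  have hbc : Continuous b :=
    (continuous_snd.mul hkc).sub ((continuous_snd.sub continuous_const).mul hkc')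
  have h1 : ∀ t, ip (gm e (v, t)) (dF F hD hB hdiam v U t) (zF F D v U t) =
      ∫ r in (0 : ℝ)..D, b (t - r, r) := by
    intro t
    rw [ip_dF_zF hD hB hdiam hP h h]
    refine intervalIntegral.integral_congr fun r _ => ?_
    have k1 := mul_kq (F := F) (v := v) U (t - r) r
    have k2 := mul_kq (F := F) (v := v) U (t - r) (r - D)
    have e1 : t - r + r = t := sub_add_cancel t r
    have e2 : t - r + (r - D) = t - D := by ring
    rw [e1] at k1
    rw [e2] at k2
    simp only [hb]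
    rw [← k1, ← k2]
  simp only [h1]
  rw [swap_per hbc (2 * D) (fun t r => by
    simp only [hb]
    rw [kq_per hD hB hdiam hσ hper, kq_per hD hB hdiam hσ hper])]
  have hline : ∀ r, Continuous fun s => kq F v U s r := fun r =>
    hkc.comp (continuous_id.prodMk continuous_const)
  have h2 : ∀ r, ∫ t in (0 : ℝ)..(2 * D), b (t, r) =
      r * kap F D v U r - (r - D) * kap F D v U (r - D) := by
    intro r
    simp only [hb]
    rw [intervalIntegral.integral_sub (((hline r).const_mul r).intervalIntegrable _ _)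
      (((hline (r - D)).const_mul (r - D)).intervalIntegrable _ _),
      intervalIntegral.integral_const_mul, intervalIntegral.integral_const_mul]
    rfl
  simp only [h2]
  have hkap : Continuous (kap F D v U) := (contDiff_kap h.fa).continuous
  have c1 : Continuous fun r => r * kap F D v U r := continuous_id.mul hkap
  have c2 : Continuous fun r => (r - D) * kap F D v U (r - D) :=
    (continuous_id.sub continuous_const).mul (hkap.comp (continuous_id.sub continuous_const))
  have c3 : Continuous fun r => r * kap F D v U (-r) := continuous_id.mul (hkap.comp continuous_neg)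
  rw [intervalIntegral.integral_sub (c1.intervalIntegrable _ _) (c2.intervalIntegrable _ _)]
  have h3 := intervalIntegral.integral_comp_sub_left (a := 0) (b := D)
    (fun r => r * kap F D v U (-r)) D
  rw [sub_self, sub_zero] at h3
  have h4 : ∫ r in (0 : ℝ)..D, (r - D) * kap F D v U (r - D) =
      -∫ r in (0 : ℝ)..D, r * kap F D v U (-r) := by
    rw [← h3, ← intervalIntegral.integral_neg]
    refine intervalIntegral.integral_congr fun r _ => ?_
    simp only [neg_sub]
    ring
  rw [h4, sub_neg_eq_add, ← intervalIntegral.integral_add (c1.intervalIntegrable _ _)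
    (c3.intervalIntegrable _ _)]
  refine intervalIntegral.integral_congr fun r _ => ?_
  ring

end

end Vale.Agent.P231.S3E2
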