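import Vale.Agent.P231.S3E2.Pos

/-!
# P231, stage 3, S3-A: the second variation of the energy over an arbitrary period
-/

set_option maxSynthPendingDepth 3
set_option linter.unusedSectionVars false
set_option linter.unusedVariables false

open Bundle Manifold Set Filter Module MeasureTheory
open scoped ContDiff Manifold Topology

namespace Vale.Agent.P231.S3E2

noncomputable section

open Vale.Agent.P234 Vale.Agent.P231 Vale.Agent.P231.Fm Vale.Agent.P231.W Vale.Agent.P231.WR
open Vale.Agent.P231.H775 Vale.Agent.P231.WC Vale.Agent.P231.S2N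

variable {E : Type*} [NormedAddCommGroup E] [NormedSpace ℝ E]
  {M : Type*} [MetricSpace M] [ChartedSpace E M]
  [RiemannianBundle (fun x : M => TangentSpace 𝓘(ℝ, E) x)]
  {e : ∀ x : M, TangentSpace 𝓘(ℝ, E) x → M}
  [FiniteDimensional ℝ E] [IsManifold 𝓘(ℝ, E) ∞ M]
  [IsContMDiffRiemannianBundle 𝓘(ℝ, E) ∞ E (fun x : M => TangentSpace 𝓘(ℝ, E) x)]
  [CompactSpace M] [ConnectedSpace M] [IsRiemannianManifold 𝓘(ℝ, E) M]

variable {D T : ℝ} {v : UT E M} {Z : ℝ → E}

/-- the energy over `[0, T]` of the push-off of the geodesic of `v` along the field `Z` -/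
def enT (e : ∀ x : M, TangentSpace 𝓘(ℝ, E) x → M) (T : ℝ) (v : UT E M) (Z : ℝ → E) (ε : ℝ) : ℝ :=
  ∫ t in (0 : ℝ)..T, sq2 (E := E) (po2 e v Z) (ε, t)

theorem po2_perT (F : Facts e) (hT : phi F (v, T) = v) (hper : ∀ t, Z (t + T) = Z t) (a t : ℝ) :
    po2 e v Z (a, t + T) = po2 e v Z (a, t) := by
  unfold po2
  have h1 : gm e (v, t + T) = gm e (v, t) := by
    have h2 := gm_phi F v T t
    rw [hT] at h2
    rw [add_comm, ← h2]
  have h3 : ∀ (x y : M) (a b : E), x = y → a = b → e x a = e y b := by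
    rintro x y a b rfl rfl
    rfl
  exact h3 _ _ _ _ h1 (congrArg (fun b : E => a • b) (hper t))

theorem mx2_perT (F : Facts e) (hT : phi F (v, T) = v)
    (hZ : ∀ t, FA e v Z t) (hper : ∀ t, Z (t + T) = Z t) (a : ℝ) :
    mx2 (E := E) (po2 e v Z) (a, T) = mx2 (E := E) (po2 e v Z) (a, 0) := by
  have hp : ∀ a t, po2 e v Z (a, t + T) = po2 e v Z (a, t) := po2_perT F hT hper
  have h1 : po2 e v Z (a, T) = po2 e v Z (a, 0) := by
    have h := hp a 0
    rwa [zero_add] at h
  have h2 : (WC.vl (fun t => po2 e v Z (a, t)) T : E) =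
      WC.vl (fun t => po2 e v Z (a, t)) 0 := by
    have k := vl_shift' (g := fun t => po2 e v Z (a, t)) (fun s => cm_line2 F hZ _ s) T 0
    rw [add_zero] at k
    rw [← k]
    refine congrArg (fun f : ℝ → M => (WC.vl f 0 : E)) ?_
    funext s
    rw [add_comm]
    exact hp a s
  have h3 : (WC.vl (fun s => po2 e v Z (s, T)) a : E) =
      WC.vl (fun s => po2 e v Z (s, 0)) a := by
    refine congrArg (fun f : ℝ → M => (WC.vl f a : E)) ?_
    funext s
    have h := hp s 0
    rwa [zero_add] at h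
  unfold mx2
  exact ip_congr3' (E := E) h1 h2 h3

/-- the energy at zero -/
theorem enT_zero (F : Facts e) (T : ℝ) (v : UT E M) (Z : ℝ → E) : enT e T v Z 0 = T := by
  have h1 : ∀ t, sq2 (E := E) (po2 e v Z) (0, t) = 1 := by
    intro t
    have e1 : (fun s => po2 e v Z (0, s)) = fun s => gm e (v, s) := funext fun s => po2_zero F v Z s
    have e2 : (WC.vl (fun s => gm e (v, s)) t : E) = vec' (phi F (v, t)) :=
      mfderiv_gam F.isExp (foot v) (vec' v) t
    unfold sq2
    change nm (po2 e v Z (0, t)) (WC.vl (fun s => po2 e v Z (0, s)) t : E) ^ 2 = 1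
    rw [e1, e2, po2_zero F]
    have h5 : nm (gm e (v, t)) (vec' (phi F (v, t))) = 1 := nm_vec' (phi F (v, t))
    rw [h5, one_pow]
  unfold enT
  simp only [h1, intervalIntegral.integral_const, sub_zero, smul_eq_mul, mul_one]

/-- THE FIRST VARIATION of the energy -/
theorem deriv_enT (F : Facts e) (hD : 0 < D) (hB : InjGE e D) (hT : phi F (v, T) = v)
    (hZ : ∀ t, FA e v Z t) (hper : ∀ t, Z (t + T) = Z t) : deriv (enT e T v Z) 0 = 0 := by
  have h0 := congrFun (deriv_int_d1 (cd_sq2 F hZ) 0 T) 0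
  have h1 : ∀ t, d1 (sq2 (E := E) (po2 e v Z)) (0, t) =
      2 * d2 (mx2 (E := E) (po2 e v Z)) (0, t) := by
    intro t
    have h2 := first_field F hD hB (phi F (v, t)) (X := fun s => Z (t + s)) (fa_shift F hZ t 0)
    rw [sq2_shift F hZ, mx2_shift F hZ, d1_shift, d2_shift] at h2
    beta_reduce at h2
    have h3 : ((0, t) + (0, 0) : ℝ × ℝ) = (0, t) := by simp
    rw [h3] at h2
    linarith
  have h4 : deriv (enT e T v Z) 0 = ∫ t in (0 : ℝ)..T, d1 (sq2 (E := E) (po2 e v Z)) (0, t) := h0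
  rw [h4]
  simp only [h1]
  rw [intervalIntegral.integral_const_mul, int_d2 (cd_mx2 F hZ)
    (mx2_perT F hT hZ hper 0), mul_zero]

/-- THE SECOND VARIATION of the energy -/
theorem deriv2_enT (F : Facts e) (hD : 0 < D) (hB : InjGE e D) (hT : phi F (v, T) = v)
    (hZ : ∀ t, FA e v Z t) (hper : ∀ t, Z (t + T) = Z t) {δ : ℝ → E}
    (hδ : ∀ t, JE e (foot (phi F (v, t))) (phi F (v, t)) (fun s => Z (t + s)) (δ t))
    (hc : Continuous fun t => ip (gm e (v, t)) (δ t) (Z t)) :
    (1 / 2 : ℝ) * deriv (deriv (enT e T v Z)) 0 =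
      -∫ t in (0 : ℝ)..T, ip (gm e (v, t)) (δ t) (Z t) := by
  have hs := cd_sq2 F hZ
  have hm := cd_mx2 F hZ
  have h0 : deriv (enT e T v Z) = fun s =>
      ∫ t in (0 : ℝ)..T, d1 (sq2 (E := E) (po2 e v Z)) (s, t) := deriv_int_d1 hs 0 T
  have h0' : deriv (deriv (enT e T v Z)) 0 =
      ∫ t in (0 : ℝ)..T, d1 (d1 (sq2 (E := E) (po2 e v Z))) (0, t) := by
    rw [h0]
    exact congrFun (deriv_int_d1 (contDiff_d1' hs) 0 T) 0
  have h1 : ∀ t, d1 (d1 (sq2 (E := E) (po2 e v Z))) (0, t) =
      2 * d2 (d1 (mx2 (E := E) (po2 e v Z))) (0, t) - 2 * ip (gm e (v, t)) (δ t) (Z t) := by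
    intro t
    have h2 := second_field F hD hB (foot (phi F (v, t))) (phi F (v, t))
      (mem_extChartAt_source _) (X := fun s => Z (t + s)) (fa_shift F hZ t 0) (hδ t)
    rw [sq2_shift F hZ, mx2_shift F hZ, d1_shift, d1_shift, d1_shift, d2_shift] at h2
    beta_reduce at h2
    have h3 : ((0, t) + (0, 0) : ℝ × ℝ) = (0, t) := by simp
    rw [h3] at h2
    have h4 : ip (foot (phi F (v, t))) (δ t) (Z (t + 0)) = ip (gm e (v, t)) (δ t) (Z t) := by
      change ip (gm e (v, t)) (δ t) (Z (t + 0)) = _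
      rw [add_zero]
    rw [h4] at h2
    linarith
  have hper2 : ∀ a, mx2 (E := E) (po2 e v Z) (a, T) = mx2 (E := E) (po2 e v Z) (a, 0) :=
    mx2_perT F hT hZ hper
  have hper3 : d1 (mx2 (E := E) (po2 e v Z)) (0, T) = d1 (mx2 (E := E) (po2 e v Z)) (0, 0) := by
    rw [← deriv_d1 hm, ← deriv_d1 hm]
    exact congrArg (fun f => deriv f 0) (funext hper2)
  have c1 : Continuous fun t => d2 (d1 (mx2 (E := E) (po2 e v Z))) (0, t) :=
    (contDiff_d2' (contDiff_d1' hm)).continuous.comp (continuous_const.prodMk continuous_id)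
  rw [h0']
  simp only [h1]
  rw [intervalIntegral.integral_sub ((c1.const_mul 2).intervalIntegrable _ _)
    ((hc.const_mul 2).intervalIntegrable _ _), intervalIntegral.integral_const_mul,
    intervalIntegral.integral_const_mul, int_d2 (contDiff_d1' hm) hper3]
  ring

/-! ### the double period -/

theorem int_double {f : ℝ → ℝ} (hf : Continuous f) (hD : f.Periodic (2 * D)) :
    ∫ t in (0 : ℝ)..(4 * D), f t = 2 * ∫ t in (0 : ℝ)..(2 * D), f t := by
  have h1 := intervalIntegral.integral_add_adjacent_intervals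
    (hf.intervalIntegrable (μ := volume) 0 (2 * D)) (hf.intervalIntegrable (2 * D) (4 * D))
  have h2 := hD.intervalIntegral_add_eq 0 (2 * D)
  have e1 : 2 * D + 2 * D = 4 * D := by ring
  rw [zero_add, e1] at h2
  rw [← h1, ← h2]
  ring

theorem int_anti4 {f : ℝ → ℝ} (hf : Continuous f) (h : ∀ t, f (t + 2 * D) = -f t) :
    ∫ t in (0 : ℝ)..(4 * D), f t = 0 := by
  have k := int_anti (D := 2 * D) hf h
  have e1 : 2 * (2 * D) = 4 * D := by ring
  rwa [e1] at k

theorem phi_per4 (F : Facts e) (hD : 0 < D) (hB : InjGE e D) (hdiam : ∀ p q : M, dist p q ≤ D)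
    (v : UT E M) : phi F (v, 4 * D) = v := by
  have k := W.phi_per F hD hB hdiam (phi F (v, 2 * D))
  rw [phi_add, W.phi_per F hD hB hdiam] at k
  have e1 : 2 * D + 2 * D = 4 * D := by ring
  rwa [e1] at k

variable {hD : 0 < D} {hB : InjGE e D} {hdiam : ∀ p q : M, dist p q ≤ D}

/-- **the second variation over the double period of the sum of a periodic field and an
antiperiodic superposition** -/
theorem deriv2_sum {F : Facts e} {l : ℕ}
    (hP : ∀ x y : M, dist x y = D → finrank ℝ (H775.Pl e D x y) = l + 1)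
    {Y η : ℝ → E} (hY : LF F hD hB hdiam v Y η) {U : ℝ → E} (h : Sc F D v U)
    (hanti : ∀ t, U (t + 2 * D) = (-1 : ℝ) • U t) :
    deriv (enT e (4 * D) v (fun t => Y t + zF F D v U t)) 0 = 0 ∧
    (1 / 2 : ℝ) * deriv (deriv (enT e (4 * D) v (fun t => Y t + zF F D v U t))) 0 =
      -(2 * (∫ t in (0 : ℝ)..(2 * D), ip (gm e (v, t)) (η t) (Y t)) +
        2 * ∫ t in (0 : ℝ)..(2 * D), ip (gm e (v, t)) (dF F hD hB hdiam v U t)
          (zF F D v U t)) := by
  have hT := phi_per4 F hD hB hdiam v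
  have hphi : ∀ s, phi F (v, s + 2 * D) = phi F (v, s) := fun s => by
    have k := W.phi_per F hD hB hdiam (phi F (v, s))
    rwa [phi_add] at k
  have hgm : ∀ s, gm e (v, s + 2 * D) = gm e (v, s) := fun s => congrArg foot (hphi s)
  have hYd : ∀ t, Y (t + 2 * D) = Y t := hY.per
  -- periodicity of the source of the periodic field
  have hηd : ∀ t, η (t + 2 * D) = η t := by
    intro t
    have k1 := hY.half (t + D)
    have k2 := hY.half t
    have k3 : t + D + D = t + 2 * D := by ring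
    rw [k3, k2] at k1
    have k4 : (-Tr F hD hB hdiam (phi F (v, t)) (η t) : E) =
        (-1 : ℝ) • Tr F hD hB hdiam (phi F (v, t)) (η t) := by rw [neg_smul, one_smul]
    have k5 := Tr_Tr_of_mem F hD hB hdiam (hY.mem t)
    rw [phi_add] at k5
    rw [k1, k4, Tr_smul, k5, neg_smul, one_smul, neg_neg]
  have hzd : ∀ t, zF F D v U (t + 2 * D) = -zF F D v U t := by
    intro t
    have k : zF F D v U (t + 2 * D) = zF F D v (fun s => (-1 : ℝ) • U s) t := by
      unfold zF
      refine intervalIntegral.integral_congr fun r _ => ?_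
      have e1 : t + 2 * D - r = t - r + 2 * D := by ring
      simp only [e1, hphi, hanti]
    rw [k, zF_smul, neg_smul, one_smul]
  have hdd : ∀ t, dF F hD hB hdiam v U (t + 2 * D) = -dF F hD hB hdiam v U t := by
    intro t
    unfold dF
    have e1 : t + 2 * D - D = t - D + 2 * D := by ring
    rw [e1, hphi, hanti, hanti, Tr_smul, neg_smul, one_smul, neg_smul, one_smul]
    abel
  have fz : ∀ t, FA e v (zF F D v U) t := fa_zF h.fa
  have fd : ∀ t, FA e v (dF F hD hB hdiam v U) t := fa_dF hD hB hdiam hP h.fa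
  have hZ : ∀ t, FA e v (fun t => Y t + zF F D v U t) t := fun t => (hY.fa t).add (fz t)
  have hper : ∀ t, (Y (t + 4 * D) + zF F D v U (t + 4 * D) : E) = Y t + zF F D v U t := by
    intro t
    have e1 : t + 4 * D = t + 2 * D + 2 * D := by ring
    rw [e1, hYd, hYd, hzd, hzd, neg_neg]
  have hje : ∀ t, JE e (foot (phi F (v, t))) (phi F (v, t))
      (fun s => Y (t + s) + zF F D v U (t + s)) (η t + dF F hD hB hdiam v U t) := fun t =>
    JE.add F (mem_extChartAt_source _) (fa_shift F hY.fa t 0) (fa_shift F fz t 0) (hY.je t)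
      (je_zF hD hB hdiam h t)
  have hsm : ∀ t, FA e v (fun t => η t + dF F hD hB hdiam v U t) t := fun t =>
    (hY.sfa t).add (fd t)
  refine ⟨deriv_enT F hD hB hT hZ hper, ?_⟩
  have key := deriv2_enT F hD hB hT hZ hper (δ := fun t => η t + dF F hD hB hdiam v U t) hje
    (cont_fa F hsm hZ)
  rw [key]
  have c1 := cont_fa F hY.sfa hY.fa
  have c2 := cont_fa F hY.sfa fz
  have c3 := cont_fa F fd hY.fa
  have c4 := cont_fa F fd fz
  have c12 : Continuous fun t => ip (gm e (v, t)) (η t) (Y t) +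
      ip (gm e (v, t)) (η t) (zF F D v U t) := c1.add c2
  have c34 : Continuous fun t => ip (gm e (v, t)) (dF F hD hB hdiam v U t) (Y t) +
      ip (gm e (v, t)) (dF F hD hB hdiam v U t) (zF F D v U t) := c3.add c4
  have hneg1 : ∀ (x : M) (p q : E), ip x p (-q) = -ip x p q := fun x p q => ip_neg_right' x p q
  have hneg2 : ∀ (x : M) (p q : E), ip x (-p) q = -ip x p q := fun x p q => by
    rw [ip_comm', ip_neg_right', ip_comm']
  have hsplit : ∀ t, ip (gm e (v, t)) (η t + dF F hD hB hdiam v U t) (Y t + zF F D v U t) =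
      (ip (gm e (v, t)) (η t) (Y t) + ip (gm e (v, t)) (η t) (zF F D v U t)) +
      (ip (gm e (v, t)) (dF F hD hB hdiam v U t) (Y t) +
        ip (gm e (v, t)) (dF F hD hB hdiam v U t) (zF F D v U t)) := by
    intro t
    rw [ip_add_left', ip_add_right', ip_add_right']
  simp only [hsplit]
  rw [intervalIntegral.integral_add (c12.intervalIntegrable _ _) (c34.intervalIntegrable _ _),
    intervalIntegral.integral_add (c1.intervalIntegrable _ _) (c2.intervalIntegrable _ _),
    intervalIntegral.integral_add (c3.intervalIntegrable _ _) (c4.intervalIntegrable _ _),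
    int_double c1 (fun t => by simp only [hgm, hηd, hYd]),
    int_anti4 c2 (fun t => by
      simp only [hgm, hηd, hzd]
      exact hneg1 _ _ _),
    int_anti4 c3 (fun t => by
      simp only [hgm, hdd, hYd]
      exact hneg2 _ _ _),
    int_double c4 (fun t => by
      simp only [hgm, hdd, hzd]
      rw [hneg1, hneg2, neg_neg])]
  ring

end

end Vale.Agent.P231.S3E2
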