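import Vale.Agent.P231.S3E2.Neg

/-!
# P231, stage 3, S3-A: uniform energy bound over the bundle of the `(a, z)`
-/

set_option maxSynthPendingDepth 3
set_option linter.unusedSectionVars false
set_option linter.unusedVariables false

open Bundle Manifold Set Filter Module MeasureTheory
open scoped ContDiff Manifold Topology

namespace Vale.Agent.P231.S3E2

noncomputable section

open Vale.Agent.P234 Vale.Agent.P231 Vale.Agent.P231.Fm Vale.Agent.P231.W Vale.Agent.P231.WR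
open Vale.Agent.P231.H775 Vale.Agent.P231.WC Vale.Agent.P231.S2N Vale.Agent.P231.WF

section Abs

variable {X : Type*} [TopologicalSpace X] {DX : Dif X}

/-- a smooth function on a cylinder which is critical and strictly concave at `0` over a compact
set decreases quadratically, uniformly -/
theorem unif_quad (hL : LocSec DX) {K : Set X} (hK : IsCompact K) {f : X × ℝ → ℝ}
    (hf : (DX.prod (Dif.lin ℝ)).Map (Dif.lin ℝ) f) (hpt : ∀ x, DX.At (fun _ : ℝ => x) 0)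
    (h1 : ∀ x ∈ K, deriv (fun r => f (x, r)) 0 = 0)
    (h2 : ∀ x ∈ K, deriv (deriv (fun r => f (x, r))) 0 < 0) :
    ∃ ε₀ c : ℝ, 0 < ε₀ ∧ 0 < c ∧ ∀ r, |r| ≤ ε₀ → ∀ x ∈ K, f (x, r) ≤ f (x, 0) - c * r ^ 2 := by
  rcases K.eq_empty_or_nonempty with rfl | hne
  · exact ⟨1, 1, one_pos, one_pos, fun r _ x hx => absurd hx (Set.notMem_empty x)⟩
  have hg1 : (DX.prod (Dif.lin ℝ)).Map (Dif.lin ℝ)
      (fun p => deriv (fun r => f (p.1, r)) p.2) := H766.map_deriv hf
  have hg : (DX.prod (Dif.lin ℝ)).Map (Dif.lin ℝ)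
      (fun p => deriv (fun r => deriv (fun r' => f (p.1, r')) r) p.2) := H766.map_deriv hg1
  set g : X × ℝ → ℝ := fun p => deriv (fun r => deriv (fun r' => f (p.1, r')) r) p.2 with hgdef
  have hc : Continuous g :=
    (hL.prod (locSec_lin ℝ)).continuous (D' := Dif.lin ℝ) (plotsCont_lin ℝ) hg
  have hc0 : Continuous fun x => g (x, 0) := hc.comp (continuous_id.prodMk continuous_const)
  obtain ⟨x₀, hx₀, hmax⟩ := hK.exists_isMaxOn hne hc0.continuousOn
  have hm : g (x₀, 0) < 0 := h2 x₀ hx₀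
  set c : ℝ := -g (x₀, 0) / 4 with hcdef
  have hcpos : 0 < c := by rw [hcdef]; linarith
  have key : ∀ᶠ r in 𝓝 (0 : ℝ), ∀ x ∈ K, g (x, r) < -2 * c := by
    refine hK.eventually_forall_of_forall_eventually fun x hx => ?_
    have h3 : Tendsto (fun z : ℝ × X => g (z.2, z.1)) (𝓝 (0, x)) (𝓝 (g (x, 0))) :=
      (hc.comp continuous_swap).tendsto (0, x)
    refine h3.eventually_lt_const ?_
    have h4 : g (x, 0) ≤ g (x₀, 0) := hmax hx
    rw [hcdef]
    linarith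
  obtain ⟨η, hη, hη'⟩ := Metric.eventually_nhds_iff.1 key
  refine ⟨η / 2, c, by positivity, hcpos, fun r hr x hx => ?_⟩
  rcases eq_or_ne r 0 with rfl | hr0
  · simp
  have hfs : ContDiff ℝ ∞ (fun r => f (x, r)) := H766.contDiff_slice hf (hpt x)
  have hfs1 : ContDiff ℝ ∞ (deriv (fun r => f (x, r))) := (contDiff_infty_iff_deriv.1 hfs).2
  set G : ℝ → ℝ := fun r => f (x, r) + c * r ^ 2 with hG
  have hGs : ContDiff ℝ ∞ G := hfs.add (by fun_prop)
  have e1 : deriv G = fun r => deriv (fun r => f (x, r)) r + 2 * c * r := by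
    funext s
    have k1 := (hfs.differentiable (by simp) s).hasDerivAt
    have k2 := ((hasDerivAt_pow 2 s).const_mul c)
    have k3 : HasDerivAt G _ s := k1.add k2
    rw [k3.deriv]
    norm_num
    ring
  have e2 : ∀ s, deriv (deriv G) s = g (x, s) + 2 * c := by
    intro s
    rw [e1]
    have k1 := (hfs1.differentiable (by simp) s).hasDerivAt
    have k2 := (hasDerivAt_id s).const_mul (2 * c)
    have k3 := k1.add k2
    have k4 : deriv (fun r => deriv (fun r => f (x, r)) r + 2 * c * r) s =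
        deriv (deriv (fun r => f (x, r))) s + 2 * c * 1 := k3.deriv
    rw [k4, mul_one]
  have h5 := H766.lt_of_concave hGs (by
    rw [e1]
    simp only [h1 x hx]
    ring) (δ := η) (fun s hs => by
      rw [e2]
      have := hη' (y := s) (by rw [Real.dist_eq, sub_zero]; exact hs) x hx
      linarith) hr0 (lt_of_le_of_lt hr (by linarith))
  simp only [hG] at h5
  have e3 : c * (0 : ℝ) ^ 2 = 0 := by ring
  rw [e3, add_zero] at h5
  linarith

end Abs

attribute [local instance] topUT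

variable {E : Type*} [NormedAddCommGroup E] [NormedSpace ℝ E]
  {M : Type*} [MetricSpace M] [ChartedSpace E M]
  [RiemannianBundle (fun x : M => TangentSpace 𝓘(ℝ, E) x)]
  {e : ∀ x : M, TangentSpace 𝓘(ℝ, E) x → M}
  [FiniteDimensional ℝ E] [IsManifold 𝓘(ℝ, E) ∞ M]
  [IsContMDiffRiemannianBundle 𝓘(ℝ, E) ∞ E (fun x : M => TangentSpace 𝓘(ℝ, E) x)]
  [CompactSpace M] [ConnectedSpace M] [IsRiemannianManifold 𝓘(ℝ, E) M]

variable {D : ℝ} {F : Facts e} {ι : Type} [Fintype ι] [DecidableEq ι]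

/-- the coefficients space `(a, (x, y))` -/
abbrev WW (ι : Type) [Fintype ι] : Type :=
  EuclideanSpace ℝ ι × (EuclideanSpace ℝ ι × EuclideanSpace ℝ ι)

/-- the static field -/
def St (D : ℝ) (X Pc Ps : ι → UT E M → E) (u : UT E M) (t : ℝ) (w : WW ι) : E :=
  XX X w.1 u + (XX Pc (Real.cos (Real.pi / (2 * D) * t) • w.2.1 -
    Real.sin (Real.pi / (2 * D) * t) • w.2.2) u +
    XX Ps (Real.sin (Real.pi / (2 * D) * t) • w.2.1 +
      Real.cos (Real.pi / (2 * D) * t) • w.2.2) u)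

theorem St_smul (D : ℝ) (X Pc Ps : ι → UT E M → E) (u : UT E M) (t : ℝ) (r : ℝ) (w : WW ι) :
    St D X Pc Ps u t (r • w) = r • St D X Pc Ps u t w := by
  unfold St
  simp only [Prod.smul_fst, Prod.smul_snd]
  rw [smul_add, smul_add, ← XX_smul, ← XX_smul, ← XX_smul]
  congr 3 <;> module

/-- the curve -/
def cv (F : Facts e) (D : ℝ) (X Pc Ps : ι → UT E M → E) (v : UT E M) (w : WW ι) (t : ℝ) : M :=
  e (gm e (v, t)) (St D X Pc Ps (phi F (v, t)) t w : E)

section Smooth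

variable {X Pc Ps : ι → UT E M → E}

theorem map_cv (hX : ∀ i, Fld (X i)) (hPc : ∀ i, Fld (Pc i)) (hPs : ∀ i, Fld (Ps i)) :
    (((dUT E M).prod (Dif.lin (WW ι))).prod (Dif.lin ℝ)).Map (dM E M)
      (fun p : (UT E M × WW ι) × ℝ => cv F D X Pc Ps p.1.1 p.1.2 p.2) := by
  intro E' _ _ _ u x hu
  have hv : (dUT E M).At (fun s => (u s).1.1) x := hu.1.1
  have hw : Sm (fun s => (u s).1.2) x := hu.1.2
  have ht : Sm (fun s => (u s).2) x := hu.2
  have hph : (dUT E M).At (fun s => phi F ((u s).1.1, (u s).2)) x :=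
    map_phi F (u := fun s => ((u s).1.1, (u s).2)) ⟨hv, ht⟩
  have ha : Sm (fun s => (u s).1.2.1) x :=
    Sm.comp (f := fun w : WW ι => w.1) (g := fun s => (u s).1.2) (Sm.of_contDiff contDiff_fst _) hw
  have hx : Sm (fun s => (u s).1.2.2.1) x :=
    Sm.comp (f := fun w : WW ι => w.2.1) (g := fun s => (u s).1.2)
      (Sm.of_contDiff (contDiff_fst.comp contDiff_snd) _) hw
  have hy : Sm (fun s => (u s).1.2.2.2) x :=
    Sm.comp (f := fun w : WW ι => w.2.2) (g := fun s => (u s).1.2)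
      (Sm.of_contDiff (contDiff_snd.comp contDiff_snd) _) hw
  have hlin : ContDiff ℝ ∞ (fun t : ℝ => Real.pi / (2 * D) * t) := by fun_prop
  have hcos : Sm (fun s => Real.cos (Real.pi / (2 * D) * (u s).2)) x :=
    Sm.comp (f := fun t : ℝ => Real.cos (Real.pi / (2 * D) * t)) (g := fun s => (u s).2)
      (Sm.of_contDiff (Real.contDiff_cos.comp hlin) _) ht
  have hsin : Sm (fun s => Real.sin (Real.pi / (2 * D) * (u s).2)) x :=
    Sm.comp (f := fun t : ℝ => Real.sin (Real.pi / (2 * D) * t)) (g := fun s => (u s).2)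
      (Sm.of_contDiff (Real.contDiff_sin.comp hlin) _) ht
  have h1 := at_XX hX hph ha
  have hrx : Sm (fun s => Real.cos (Real.pi / (2 * D) * (u s).2) • (u s).1.2.2.1 -
      Real.sin (Real.pi / (2 * D) * (u s).2) • (u s).1.2.2.2) x := by
    filter_upwards [hcos, hsin, hx, hy] with s k1 k2 k3 k4
    exact (k1.smul k3).sub (k2.smul k4)
  have hry : Sm (fun s => Real.sin (Real.pi / (2 * D) * (u s).2) • (u s).1.2.2.1 +
      Real.cos (Real.pi / (2 * D) * (u s).2) • (u s).1.2.2.2) x := by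
    filter_upwards [hcos, hsin, hx, hy] with s k1 k2 k3 k4
    exact (k2.smul k3).add (k1.smul k4)
  have h2 := at_XX hPc hph hrx
  have h3 := at_XX hPs hph hry
  have h4 := at_add (f := fun s => foot (phi F ((u s).1.1, (u s).2))) h1
    (at_add (f := fun s => foot (phi F ((u s).1.1, (u s).2))) h2 h3)
  have h5 : ∀ᶠ s in 𝓝 x, SmV (fun s => foot (phi F ((u s).1.1, (u s).2)))
      (fun s => (St D X Pc Ps (phi F ((u s).1.1, (u s).2)) (u s).2 (u s).1.2 : E)) s := h4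
  change ∀ᶠ s in 𝓝 x, ContMDiffAt 𝓘(ℝ, E') 𝓘(ℝ, E) ∞
    (fun s => cv F D X Pc Ps (u s).1.1 (u s).1.2 (u s).2) s
  filter_upwards [h5] with s hs
  exact hs.exp F.isExp

theorem at_const_UT (v : UT E M) {E' : Type} [NormedAddCommGroup E'] [NormedSpace ℝ E']
    [FiniteDimensional ℝ E'] (x : E') : (dUT E M).At (fun _ : E' => v) x := H583.at_const v x

/-- the curves are smooth -/
theorem cm_cv (hX : ∀ i, Fld (X i)) (hPc : ∀ i, Fld (Pc i)) (hPs : ∀ i, Fld (Ps i)) (v : UT E M)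
    (w : WW ι) (t : ℝ) : ContMDiffAt 𝓘(ℝ, ℝ) 𝓘(ℝ, E) ∞ (cv F D X Pc Ps v w) t := by
  have h : (dM E M).At (fun t : ℝ => cv F D X Pc Ps v w t) t :=
    map_cv (F := F) (D := D) hX hPc hPs (u := fun t : ℝ => ((v, w), t))
      ⟨⟨at_const_UT v t, Sm.of_contDiff contDiff_const t⟩, Sm.of_contDiff contDiff_id t⟩
  exact Filter.Eventually.self_of_nhds h

/-- the energy over the double period -/
def enC (F : Facts e) (D : ℝ) (X Pc Ps : ι → UT E M → E) (v : UT E M) (w : WW ι) : ℝ :=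
  ∫ t in (0 : ℝ)..(4 * D), nm (cv F D X Pc Ps v w t) (WC.vl (cv F D X Pc Ps v w) t : E) ^ 2

theorem map_enC (hX : ∀ i, Fld (X i)) (hPc : ∀ i, Fld (Pc i)) (hPs : ∀ i, Fld (Ps i)) :
    ((dUT E M).prod (Dif.lin (WW ι))).Map (Dif.lin ℝ)
      (fun p => enC F D X Pc Ps p.1 p.2) := by
  have h1 : ((((dUT E M).prod (Dif.lin (WW ι))).prod (Dif.lin ℝ)).prod (Dif.lin ℝ)).Map (dM E M)
      (fun p : ((UT E M × WW ι) × ℝ) × ℝ => cv F D X Pc Ps p.1.1.1 p.1.1.2 (p.1.2 + p.2)) := by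
    intro E' _ _ _ u x hu
    refine map_cv (F := F) (D := D) hX hPc hPs (u := fun s : E' => ((u s).1.1, (u s).1.2 + (u s).2)) ?_
    have k1 : Sm (fun s => (u s).1.2) x := hu.1.2
    have k2 : Sm (fun s => (u s).2) x := hu.2
    refine ⟨hu.1.1, ?_⟩
    change Sm (fun s => (u s).1.2 + (u s).2) x
    filter_upwards [k1, k2] with s h1 h2 using h1.add h2
  have h2v : (((dUT E M).prod (Dif.lin (WW ι))).prod (Dif.lin ℝ)).Map (dTM E M)
      (fun q : (UT E M × WW ι) × ℝ => tb (cv F D X Pc Ps q.1.1 q.1.2 (q.2 + 0))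
        (WC.vl (fun t => cv F D X Pc Ps q.1.1 q.1.2 (q.2 + t)) 0)) := map_vel h1
  have h2 : (((dUT E M).prod (Dif.lin (WW ι))).prod (Dif.lin ℝ)).Map (Dif.lin ℝ)
      (fun q : (UT E M × WW ι) × ℝ => nm (cv F D X Pc Ps q.1.1 q.1.2 (q.2 + 0))
        (WC.vl (fun t => cv F D X Pc Ps q.1.1 q.1.2 (q.2 + t)) 0) ^ 2) := map_nm_sq h2v
  have h3 : (((dUT E M).prod (Dif.lin (WW ι))).prod (Dif.lin ℝ)).Map (Dif.lin ℝ)
      (fun p : (UT E M × WW ι) × ℝ => nm (cv F D X Pc Ps p.1.1 p.1.2 p.2)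
        (WC.vl (cv F D X Pc Ps p.1.1 p.1.2) p.2 : E) ^ 2) := by
    have e1 : (fun p : (UT E M × WW ι) × ℝ => nm (cv F D X Pc Ps p.1.1 p.1.2 p.2)
        (WC.vl (cv F D X Pc Ps p.1.1 p.1.2) p.2 : E) ^ 2) = fun p : (UT E M × WW ι) × ℝ =>
        nm (cv F D X Pc Ps p.1.1 p.1.2 (p.2 + 0))
          (WC.vl (fun t => cv F D X Pc Ps p.1.1 p.1.2 (p.2 + t)) 0 : E) ^ 2 := by
      funext p
      have k := WC.vl_shift (g := cv F D X Pc Ps p.1.1 p.1.2) (t := p.2)
        (cm_cv hX hPc hPs p.1.1 p.1.2 p.2)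
      rw [k, add_zero]
    rw [e1]
    intro E' _ _ _ u x hu
    exact h2 hu
  have h4 : ((dUT E M).prod (Dif.lin (WW ι))).Map (Dif.lin ℝ)
      (fun x : UT E M × WW ι => ∫ t in (0 : ℝ)..(4 * D),
        (fun p : (UT E M × WW ι) × ℝ => nm (cv F D X Pc Ps p.1.1 p.1.2 p.2)
          (WC.vl (cv F D X Pc Ps p.1.1 p.1.2) p.2 : E) ^ 2) (x, t)) := H766.map_integral h3 (4 * D)
  intro E' _ _ _ u x hu
  exact h4 hu

end Smooth

variable {hD : 0 < D} {hB : InjGE e D} {hdiam : ∀ p q : M, dist p q ≤ D} {l : ℕ}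
  {X δ Pc Ps : ι → UT E M → E} {ε : ℝ} {W : ι → UT E M → E}

theorem enC_smul (hd : ∀ v (x y : EuclideanSpace ℝ ι) t,
      XX Pc (Real.cos (Real.pi / (2 * D) * t) • x - Real.sin (Real.pi / (2 * D) * t) • y)
        (phi F (v, t)) +
      XX Ps (Real.sin (Real.pi / (2 * D) * t) • x + Real.cos (Real.pi / (2 * D) * t) • y)
        (phi F (v, t)) = zF F D v (Uz F D W v x y) t) (v : UT E M) (w : WW ι) (r : ℝ) :
    enC F D X Pc Ps v (r • w) = enT e (4 * D) v (Zf F D X W v w.1 w.2.1 w.2.2) r := by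
  have h1 : ∀ t, cv F D X Pc Ps v (r • w) t = po2 e v (Zf F D X W v w.1 w.2.1 w.2.2) (r, t) := by
    intro t
    unfold cv po2
    rw [St_smul]
    unfold St Zf
    rw [hd]
  have h2 : cv F D X Pc Ps v (r • w) =
      fun t => po2 e v (Zf F D X W v w.1 w.2.1 w.2.2) (r, t) := funext h1
  unfold enC enT
  refine intervalIntegral.integral_congr fun t _ => ?_
  rw [h2]
  rfl

/-- **the uniform energy bound** -/
theorem exists_energy
    (hP : ∀ x y : M, dist x y = D → finrank ℝ (H775.Pl e D x y) = l + 1)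
    (hf : Fam F hD hB hdiam l X δ ε) (hW : IsW F hD hB hdiam X δ ε W)
    (hPc : ∀ i, Fld (Pc i)) (hPs : ∀ i, Fld (Ps i)) (hd : ∀ v (x y : EuclideanSpace ℝ ι) t,
      XX Pc (Real.cos (Real.pi / (2 * D) * t) • x - Real.sin (Real.pi / (2 * D) * t) • y)
        (phi F (v, t)) +
      XX Ps (Real.sin (Real.pi / (2 * D) * t) • x + Real.cos (Real.pi / (2 * D) * t) • y)
        (phi F (v, t)) = zF F D v (Uz F D W v x y) t) :
    ∃ ε₀ c : ℝ, 0 < ε₀ ∧ 0 < c ∧ ∀ (v : UT E M) (w : WW ι), Pm F D X δ ε v w.1 = w.1 →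
      Pm F D X δ ε v w.2.1 = w.2.1 → Pm F D X δ ε v w.2.2 = w.2.2 → ‖w‖ ≤ ε₀ →
      enC F D X Pc Ps v w ≤ 4 * D - c * ‖w‖ ^ 2 := by
  have : CompactSpace (UT E M) := compactSpace_UT
  have hX : ∀ i, Fld (X i) := fun i => (hf.df i).fld
  have hL : LocSec ((dUT E M).prod (Dif.lin (WW ι))) := locSec_dUT.prod (locSec_lin (WW ι))
  have hcont : ∀ (g : WW ι →L[ℝ] EuclideanSpace ℝ ι), Continuous fun p : UT E M × WW ι =>
      Pm F D X δ ε p.1 (g p.2) - g p.2 := by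
    intro g
    refine hL.continuous (D' := Dif.lin (EuclideanSpace ℝ ι)) (plotsCont_lin _) ?_
    intro E' _ _ _ u x hu
    have h1 : Sm (fun s => Pm F D X δ ε (u s).1) x := hf.sm_Pm hu.1
    have h2 : Sm (fun s => g (u s).2) x :=
      Sm.comp (f := fun w => g w) (g := fun s => (u s).2) (Sm.of_contDiff g.contDiff _) hu.2
    change Sm (fun s => Pm F D X δ ε (u s).1 (g (u s).2) - g (u s).2) x
    filter_upwards [h1, h2] with s k1 k2 using (k1.clm_apply k2).sub k2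
  set K : Set (UT E M × WW ι) := {p | ‖p.2‖ = 1 ∧ Pm F D X δ ε p.1 p.2.1 - p.2.1 = 0 ∧
    Pm F D X δ ε p.1 p.2.2.1 - p.2.2.1 = 0 ∧ Pm F D X δ ε p.1 p.2.2.2 - p.2.2.2 = 0} with hK
  have hKc : IsCompact K := by
    have hbig : IsCompact ((univ : Set (UT E M)) ×ˢ Metric.sphere (0 : WW ι) 1) :=
      isCompact_univ.prod (isCompact_sphere _ _)
    refine hbig.of_isClosed_subset ?_ ?_
    · have c1 := hcont (ContinuousLinearMap.fst ℝ _ _)
      have c2 := hcont ((ContinuousLinearMap.fst ℝ _ _).comp (ContinuousLinearMap.snd ℝ _ _))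
      have c3 := hcont ((ContinuousLinearMap.snd ℝ _ _).comp (ContinuousLinearMap.snd ℝ _ _))
      refine (isClosed_eq continuous_snd.norm continuous_const).inter
        ((isClosed_eq c1 continuous_const).inter
        ((isClosed_eq c2 continuous_const).inter (isClosed_eq c3 continuous_const)))
    · rintro p ⟨hp, -⟩
      exact ⟨mem_univ _, by simpa using hp⟩
  have hf' : (((dUT E M).prod (Dif.lin (WW ι))).prod (Dif.lin ℝ)).Map (Dif.lin ℝ)
      (fun q : (UT E M × WW ι) × ℝ => enC F D X Pc Ps q.1.1 (q.2 • q.1.2)) := by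
    intro E' _ _ _ u x hu
    refine map_enC (F := F) (D := D) hX hPc hPs (u := fun s : E' => ((u s).1.1, (u s).2 • (u s).1.2)) ?_
    have k1 : Sm (fun s => (u s).1.2) x := hu.1.2
    have k2 : Sm (fun s => (u s).2) x := hu.2
    refine ⟨hu.1.1, ?_⟩
    change Sm (fun s => (u s).2 • (u s).1.2) x
    filter_upwards [k1, k2] with s h1 h2 using h2.smul h1
  have hslice : ∀ p : UT E M × WW ι, (fun r : ℝ => enC F D X Pc Ps p.1 (r • p.2)) =
      enT e (4 * D) p.1 (Zf F D X W p.1 p.2.1 p.2.2.1 p.2.2.2) := fun p =>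
    funext fun r => enC_smul hd p.1 p.2 r
  have hneg : ∀ p ∈ K, deriv (fun r : ℝ => enC F D X Pc Ps p.1 (r • p.2)) 0 = 0 ∧
      deriv (deriv (fun r : ℝ => enC F D X Pc Ps p.1 (r • p.2))) 0 < 0 := by
    rintro p ⟨h1, h2, h3, h4⟩
    rw [hslice]
    refine neg_at hP hf hW p.1 (sub_eq_zero.1 h2) (sub_eq_zero.1 h3) (sub_eq_zero.1 h4) ?_
    by_contra hcon
    push Not at hcon
    obtain ⟨z1, z2, z3⟩ := hcon
    have z4 : p.2 = 0 := Prod.ext z1 (Prod.ext z2 z3)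
    rw [z4, norm_zero] at h1
    exact zero_ne_one h1
  obtain ⟨ε₀, c, hε₀, hc, hmain⟩ := unif_quad hL hKc hf'
    (fun x => ⟨at_const_UT x.1 _, Sm.of_contDiff contDiff_const _⟩)
    (fun p hp => (hneg p hp).1) (fun p hp => (hneg p hp).2)
  have hzero : ∀ v, enC F D X Pc Ps v (0 : WW ι) = 4 * D := by
    intro v
    have k := enC_smul (X := X) hd v (0 : WW ι) 0
    rw [zero_smul] at k
    rw [k]
    exact enT_zero F _ _ _
  refine ⟨ε₀, c, hε₀, hc, fun v w hw1 hw2 hw3 hw => ?_⟩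
  rcases eq_or_ne w 0 with rfl | hw0
  · rw [hzero, norm_zero]
    linarith [hc]
  have hn : 0 < ‖w‖ := norm_pos_iff.2 hw0
  have hK' : (v, ‖w‖⁻¹ • w) ∈ K := by
    refine ⟨?_, ?_, ?_, ?_⟩
    · change ‖‖w‖⁻¹ • w‖ = 1
      rw [norm_smul, norm_inv, norm_norm, inv_mul_cancel₀ hn.ne']
    · change Pm F D X δ ε v (‖w‖⁻¹ • w.1) - ‖w‖⁻¹ • w.1 = 0
      rw [map_smul, hw1, sub_self]
    · change Pm F D X δ ε v (‖w‖⁻¹ • w.2.1) - ‖w‖⁻¹ • w.2.1 = 0
      rw [map_smul, hw2, sub_self]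
    · change Pm F D X δ ε v (‖w‖⁻¹ • w.2.2) - ‖w‖⁻¹ • w.2.2 = 0
      rw [map_smul, hw3, sub_self]
  have k := hmain ‖w‖ (by rw [abs_of_pos hn]; exact hw) _ hK'
  have e1 : ‖w‖ • (‖w‖⁻¹ • w) = w := by
    rw [smul_smul, mul_inv_cancel₀ hn.ne', one_smul]
  have e2 : (0 : ℝ) • (‖w‖⁻¹ • w) = 0 := zero_smul _ _
  simp only [e1, e2, hzero] at k
  exact k

end

end Vale.Agent.P231.S3E2
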