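import Vale.Agent.P231.S3Y.Cur
import Vale.Agent.P231.S3E2.Uni

/-!
# P231, stage 3, S3-A: the interface with S3-Y
-/

set_option maxSynthPendingDepth 3
set_option linter.unusedSectionVars false
set_option linter.unusedVariables false

open Bundle Manifold Set Filter Module MeasureTheory
open scoped ContDiff Manifold Topology

namespace Vale.Agent.P231.S3E2

noncomputable section

open Vale.Agent.P234 Vale.Agent.P231 Vale.Agent.P231.Fm Vale.Agent.P231.W Vale.Agent.P231.WR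
open Vale.Agent.P231.H775 Vale.Agent.P231.WC Vale.Agent.P231.S2N Vale.Agent.P231.WF

variable {E : Type*} [NormedAddCommGroup E] [NormedSpace ℝ E]
  {M : Type*} [MetricSpace M] [ChartedSpace E M]
  [RiemannianBundle (fun x : M => TangentSpace 𝓘(ℝ, E) x)]
  {e : ∀ x : M, TangentSpace 𝓘(ℝ, E) x → M}
  [FiniteDimensional ℝ E] [IsManifold 𝓘(ℝ, E) ∞ M]
  [IsContMDiffRiemannianBundle 𝓘(ℝ, E) ∞ E (fun x : M => TangentSpace 𝓘(ℝ, E) x)]
  [CompactSpace M] [ConnectedSpace M] [IsRiemannianManifold 𝓘(ℝ, E) M]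

variable {D : ℝ} {F : Facts e} {ι : Type} [Fintype ι] [DecidableEq ι]
  {hD : 0 < D} {hB : InjGE e D} {hdiam : ∀ p q : M, dist p q ≤ D} {l : ℕ}
  {X δ Pc Ps : ι → UT E M → E} {ε : ℝ} {W : ι → UT E M → E}

theorem eY_eq (v : UT E M) (w : WW ι) : S3Y.eY F D X Pc Ps (v, w) = enC F D X Pc Ps v w := rfl

/-- **the fields in the directions of `E'`** -/
theorem exists_phF
    (hP : ∀ x y : M, dist x y = D → finrank ℝ (H775.Pl e D x y) = l + 1)
    (hf : Fam F hD hB hdiam l X δ ε) (hW : IsW F hD hB hdiam X δ ε W)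
    (hPc : ∀ i, Fld (Pc i)) (hPs : ∀ i, Fld (Ps i)) (hd : ∀ v (x y : EuclideanSpace ℝ ι) t,
      XX Pc (Real.cos (Real.pi / (2 * D) * t) • x - Real.sin (Real.pi / (2 * D) * t) • y)
        (phi F (v, t)) +
      XX Ps (Real.sin (Real.pi / (2 * D) * t) • x + Real.cos (Real.pi / (2 * D) * t) • y)
        (phi F (v, t)) = zF F D v (Uz F D W v x y) t) :
    ∃ ε₁, S3Y.PhF F D X δ ε Pc Ps ε₁ := by
  obtain ⟨ε₀, c, hε₀, hc, h⟩ := exists_energy hP hf hW hPc hPs hd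
  refine ⟨ε₀, hPc, hPs, hε₀, fun v a x y ha hx hy hne h1 h2 h3 => ?_⟩
  rw [eY_eq]
  have hn : 0 < ‖((a, (x, y)) : WW ι)‖ := norm_pos_iff.2 hne
  have hle : ‖((a, (x, y)) : WW ι)‖ ≤ ε₀ := by
    rw [Prod.norm_def, Prod.norm_def]
    exact max_le h1 (max_le h2 h3)
  have k := h v (a, (x, y)) ha hx hy hle
  have k2 : 0 < c * ‖((a, (x, y)) : WW ι)‖ ^ 2 := by positivity
  linarith

end

end Vale.Agent.P231.S3E2
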