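import Vale.Agent.P231.S3E2.Pair2

/-!
# P231, stage 3, S3-A: the index form is negative on the first odd mode
-/

set_option maxSynthPendingDepth 3
set_option linter.unusedSectionVars false
set_option linter.unusedVariables false

open Bundle Manifold Set Filter Module MeasureTheory
open scoped ContDiff Manifold Topology

namespace Vale.Agent.P231.S3E2

noncomputable section

open Vale.Agent.P234 Vale.Agent.P231 Vale.Agent.P231.Fm Vale.Agent.P231.W Vale.Agent.P231.WR
open Vale.Agent.P231.H775 Vale.Agent.P231.WC Vale.Agent.P231.S2N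

variable {E : Type*} [NormedAddCommGroup E] [NormedSpace ℝ E]
  {M : Type*} [MetricSpace M] [ChartedSpace E M]
  [RiemannianBundle (fun x : M => TangentSpace 𝓘(ℝ, E) x)]
  {e : ∀ x : M, TangentSpace 𝓘(ℝ, E) x → M}
  [FiniteDimensional ℝ E] [IsManifold 𝓘(ℝ, E) ∞ M]
  [IsContMDiffRiemannianBundle 𝓘(ℝ, E) ∞ E (fun x : M => TangentSpace 𝓘(ℝ, E) x)]
  [CompactSpace M] [ConnectedSpace M] [IsRiemannianManifold 𝓘(ℝ, E) M]

variable {D : ℝ} {v : UT E M} {F : Facts e}

theorem kq_zero (F : Facts e) (v : UT E M) (U : ℝ → E) (s : ℝ) :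
    kq F v U s 0 = nm (gm e (v, s)) (U s) ^ 2 := by
  unfold kq
  have h1 : (dE e (foot (phi F (v, s))) ((0 : ℝ) • vec' (phi F (v, s))) (U s) : E) = U s := by
    rw [zero_smul]
    exact dE_zero_base F.isExp _ _
  rw [h1, ← ip_self_nonneg]
  exact ip_congr3' (gm_zero F _) (by rw [add_zero]) rfl

theorem nm_pos2 {x : M} {a : E} (ha : a ≠ 0) : 0 < nm x a :=
  norm_pos_iff.2 (show (a : TangentSpace 𝓘(ℝ, E) x) ≠ 0 from ha)

theorem kap_zero_pos (hD : 0 < D) {U : ℝ → E} (h : ∀ t, FA e v U t) (hne : U 0 ≠ 0 ∨ U D ≠ 0) :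
    0 < kap F D v U 0 := by
  have h1 : kap F D v U 0 = ∫ s in (0 : ℝ)..(2 * D), kq F v U s 0 := rfl
  rw [h1]
  have hc : Continuous fun s => kq F v U s 0 :=
    (contDiff_kq h).continuous.comp (continuous_id.prodMk continuous_const)
  refine intervalIntegral.integral_pos (by linarith) hc.continuousOn (fun s _ => ?_) ?_
  · rw [kq_zero]
    positivity
  · rcases hne with h0 | h0
    · refine ⟨0, ⟨le_rfl, by linarith⟩, ?_⟩
      rw [kq_zero]
      have := nm_pos2 (x := gm e (v, 0)) h0
      positivity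
    · refine ⟨D, ⟨hD.le, by linarith⟩, ?_⟩
      rw [kq_zero]
      have := nm_pos2 (x := gm e (v, D)) h0
      positivity

/-- the kernel vanishes at the ends -/
theorem kq_D (hD : 0 < D) (hB : InjGE e D) (hdiam : ∀ p q : M, dist p q ≤ D) {U : ℝ → E}
    (h : Sc F D v U) (s : ℝ) : kq F v U s D = 0 ∧ kq F v U s (-D) = 0 := by
  have h1 := mul_kq (F := F) (v := v) U s D
  have h2 := mul_kq (F := F) (v := v) U s (-D)
  have e1 : Jc e (phi F (v, s)) (U s) D = 0 := Jc_D F hD hB hdiam _ (h.mem s)
  have e2 : Jc e (phi F (v, s)) (U s) (-D) = 0 := by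
    have k := Jc_per F hD hB hdiam (h.orth s) (-D)
    have k2 : -D + 2 * D = D := by ring
    rw [k2, e1] at k
    exact k.symm
  have hz : ∀ (x : M) (a : E), ip x a (0 : E) = 0 := fun x a =>
    inner_zero_right (E := TangentSpace 𝓘(ℝ, E) x) (𝕜 := ℝ) _
  rw [e1, hz] at h1
  rw [e2, hz] at h2
  exact ⟨(mul_eq_zero.1 h1.symm).resolve_left hD.ne',
    (mul_eq_zero.1 h2.symm).resolve_left (neg_ne_zero.2 hD.ne')⟩

variable {ι : Type} [Fintype ι] [DecidableEq ι] {l : ℕ} {X δ : ι → UT E M → E} {ε : ℝ}
  {hD : 0 < D} {hB : InjGE e D} {hdiam : ∀ p q : M, dist p q ≤ D}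

/-- one mode -/
theorem int_cut_nonpos
    (hP : ∀ x y : M, dist x y = D → finrank ℝ (H775.Pl e D x y) = l + 1)
    (hf : Fam F hD hB hdiam l X δ ε) {U : ℝ → E} (h : Sc F D v U)
    (hanti : ∀ t, U (t + 2 * D) = (-1 : ℝ) • U t) {c : ℝ → ℝ} (hc : ContDiff ℝ ∞ c)
    (hc2 : ∀ t, c (t + 2 * D) = -c t)
    (horth : ∀ b, Pm F D X δ ε v b = b → ∫ t in (0 : ℝ)..(2 * D),
      c t * ip (gm e (v, t)) (U t) (Th0 F hD hB hdiam (XX X b) (phi F (v, t))) = 0) :
    ∫ r in (0 : ℝ)..D, r * (kap F D v (fun t => c t • U t) r +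
      kap F D v (fun t => c t • U t) (-r)) ≤ 0 := by
  have hS := h.smul hc
  have hper : ∀ t, c (t + 2 * D) • U (t + 2 * D) = c t • U t := by
    intro t
    rw [hc2, hanti, smul_smul]
    congr 1
    ring
  have hLF := LF.of_Sc (hD := hD) (hB := hB) (hdiam := hdiam) hP hS hper
  rw [← int_dF_zF hD hB hdiam hP hS (σ := 1) (by norm_num) (fun t => by rw [hper, one_smul])]
  refine hLF.int_nonpos_of_orth hP hf fun b hb => ?_
  rw [int_dF_fld hD hB hdiam hP hS hper (DF.xx hf.df b).fld]
  refine Eq.trans (intervalIntegral.integral_congr fun t _ => ?_) (horth b hb)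
  exact ip_smul_left' _ _ _ _

/-- **the first odd mode has negative index form**: the pairing of the superposition with its
source is positive -/
theorem int_pos
    (hP : ∀ x y : M, dist x y = D → finrank ℝ (H775.Pl e D x y) = l + 1)
    (hf : Fam F hD hB hdiam l X δ ε) {U : ℝ → E} (h : Sc F D v U)
    (hanti : ∀ t, U (t + 2 * D) = (-1 : ℝ) • U t) (hne : U 0 ≠ 0 ∨ U D ≠ 0)
    (horth : ∀ b, Pm F D X δ ε v b = b → ∃ α β : ℝ, ∀ t,
      ip (gm e (v, t)) (U t) (Th0 F hD hB hdiam (XX X b) (phi F (v, t))) =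
        Real.cos (Real.pi / (2 * D) * t) * α + Real.sin (Real.pi / (2 * D) * t) * β) :
    0 < ∫ t in (0 : ℝ)..(2 * D), ip (gm e (v, t)) (dF F hD hB hdiam v U t) (zF F D v U t) := by
  rw [int_dF_zF hD hB hdiam hP h (σ := -1) (by norm_num) hanti]
  have hk : ContDiff ℝ ∞ (kap F D v U) := contDiff_kap h.fa
  have hkn : ContDiff ℝ ∞ (fun r => kap F D v U (-r)) := hk.comp contDiff_neg
  set h0 : ℝ → ℝ := fun r => r * (kap F D v U r + kap F D v U (-r)) with hh0
  have hsm : ContDiff ℝ ∞ h0 := contDiff_id.mul (hk.add hkn)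
  refine four_pos' hD hsm (zero_mul _) ?_ ?_ ?_
  · have e1 : kap F D v U D = 0 := by
      unfold kap
      simp only [fun s => (kq_D hD hB hdiam h s).1, intervalIntegral.integral_zero]
    have e2 : kap F D v U (-D) = 0 := by
      unfold kap
      simp only [fun s => (kq_D hD hB hdiam h s).2, intervalIntegral.integral_zero]
    change D * (kap F D v U D + kap F D v U (-D)) = 0
    rw [e1, e2]
    ring
  · have hg : ContDiff ℝ ∞ (fun r => kap F D v U r + kap F D v U (-r)) := hk.add hkn
    have hd : HasDerivAt (fun r => kap F D v U r + kap F D v U (-r))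
        (deriv (fun r => kap F D v U r + kap F D v U (-r)) 0) 0 :=
      (hg.differentiable (by simp) 0).hasDerivAt
    have hd2 := (hasDerivAt_id (0 : ℝ)).mul hd
    have hd3 : HasDerivAt h0 (kap F D v U 0 + kap F D v U (-0)) 0 := by
      refine hd2.congr_deriv ?_
      simp
    rw [hd3.deriv, neg_zero]
    have := kap_zero_pos (F := F) hD h.fa hne
    linarith
  · intro j hj
    set m : ℝ := 2 * j + 1 with hm
    set om : ℝ := Real.pi / (2 * D) with hom
    set c₁ : ℝ → ℝ := fun t => Real.cos (m * (om * t)) with hc₁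
    set c₂ : ℝ → ℝ := fun t => Real.sin (m * (om * t)) with hc₂
    have hlin : ContDiff ℝ ∞ (fun t : ℝ => m * (om * t)) := by fun_prop
    have s1 : ContDiff ℝ ∞ c₁ := Real.contDiff_cos.comp hlin
    have s2 : ContDiff ℝ ∞ c₂ := Real.contDiff_sin.comp hlin
    have hshift : ∀ t, m * (om * (t + 2 * D)) = m * (om * t) + Real.pi + (j : ℝ) * (2 * Real.pi) := by
      intro t
      rw [hm, hom]
      field_simp
      ring
    have a1 : ∀ t, c₁ (t + 2 * D) = -c₁ t := by
      intro t
      simp only [hc₁]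
      rw [hshift, Real.cos_add_nat_mul_two_pi, Real.cos_add_pi]
    have a2 : ∀ t, c₂ (t + 2 * D) = -c₂ t := by
      intro t
      simp only [hc₂]
      rw [hshift, Real.sin_add_nat_mul_two_pi, Real.sin_add_pi]
    have i1 := int_cut_nonpos hP hf h hanti s1 a1 (fun b hb => by
      obtain ⟨α, β, hab⟩ := horth b hb
      refine Eq.trans (intervalIntegral.integral_congr fun t _ => ?_) (int_mode hD j hj α β).1
      simp only [hab]
      rfl)
    have i2 := int_cut_nonpos hP hf h hanti s2 a2 (fun b hb => by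
      obtain ⟨α, β, hab⟩ := horth b hb
      refine Eq.trans (intervalIntegral.integral_congr fun t _ => ?_) (int_mode hD j hj α β).2
      simp only [hab]
      rfl)
    have hkc : ∀ r, Continuous fun s => kq F v U s r := fun r =>
      (contDiff_kq h.fa).continuous.comp (continuous_id.prodMk continuous_const)
    have hsum : ∀ r, kap F D v (fun t => c₁ t • U t) r + kap F D v (fun t => c₂ t • U t) r =
        Real.cos (m * (om * r)) * kap F D v U r := by
      intro r
      have q1 : Continuous fun s => c₁ (s + r) * c₁ s * kq F v U s r :=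
        ((s1.continuous.comp (continuous_id.add continuous_const)).mul s1.continuous).mul (hkc r)
      have q2 : Continuous fun s => c₂ (s + r) * c₂ s * kq F v U s r :=
        ((s2.continuous.comp (continuous_id.add continuous_const)).mul s2.continuous).mul (hkc r)
      unfold kap
      simp only [kq_cut]
      rw [← intervalIntegral.integral_add (q1.intervalIntegrable _ _)
        (q2.intervalIntegrable _ _), ← intervalIntegral.integral_const_mul]
      refine intervalIntegral.integral_congr fun s _ => ?_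
      have e1 : m * (om * r) = m * (om * (s + r)) - m * (om * s) := by ring
      simp only [hc₁, hc₂]
      rw [e1, Real.cos_sub]
      ring
    have hkap : ∀ c : ℝ → ℝ, ContDiff ℝ ∞ c → Continuous fun r => r *
        (kap F D v (fun t => c t • U t) r + kap F D v (fun t => c t • U t) (-r)) := by
      intro c hc
      have q := (contDiff_kap (F := F) (D := D) (h.smul hc).fa).continuous
      exact continuous_id.mul (q.add (q.comp continuous_neg))
    have hfin : ∫ r in (0 : ℝ)..D, Real.cos (m * (om * r)) * h0 r =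
        (∫ r in (0 : ℝ)..D, r * (kap F D v (fun t => c₁ t • U t) r +
          kap F D v (fun t => c₁ t • U t) (-r))) +
        ∫ r in (0 : ℝ)..D, r * (kap F D v (fun t => c₂ t • U t) r +
          kap F D v (fun t => c₂ t • U t) (-r)) := by
      rw [← intervalIntegral.integral_add ((hkap c₁ s1).intervalIntegrable _ _)
        ((hkap c₂ s2).intervalIntegrable _ _)]
      refine intervalIntegral.integral_congr fun r _ => ?_
      have e1 := hsum r
      have e2 := hsum (-r)
      have e3 : Real.cos (m * (om * -r)) = Real.cos (m * (om * r)) := by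
        rw [← Real.cos_neg]
        congr 1
        ring
      rw [e3] at e2
      simp only [hh0]
      linear_combination (-r) * e1 + (-r) * e2
    rw [hfin]
    linarith

end

end Vale.Agent.P231.S3E2
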