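import Vale.Agent.P231.S3E2.Wr0
import Vale.Agent.P231.S2N.IndexLe

/-!
# P231, stage 3, S3-A: the Wronskian of two fields along a closed geodesic, and the symmetry of the
linearised geodesic operator
-/

set_option maxSynthPendingDepth 3
set_option linter.unusedSectionVars false
set_option linter.unusedVariables false

open Bundle Manifold Set Filter Module MeasureTheory
open scoped ContDiff Manifold Topology

namespace Vale.Agent.P231.S3E2

noncomputable section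

open Vale.Agent.P234 Vale.Agent.P231 Vale.Agent.P231.Fm Vale.Agent.P231.W Vale.Agent.P231.WR
open Vale.Agent.P231.H775 Vale.Agent.P231.WC Vale.Agent.P231.S2N

variable {E : Type*} [NormedAddCommGroup E] [NormedSpace ℝ E]
  {M : Type*} [MetricSpace M] [ChartedSpace E M]
  [RiemannianBundle (fun x : M => TangentSpace 𝓘(ℝ, E) x)]
  {e : ∀ x : M, TangentSpace 𝓘(ℝ, E) x → M}
  [FiniteDimensional ℝ E] [IsManifold 𝓘(ℝ, E) ∞ M]
  [IsContMDiffRiemannianBundle 𝓘(ℝ, E) ∞ E (fun x : M => TangentSpace 𝓘(ℝ, E) x)]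
  [CompactSpace M] [ConnectedSpace M] [IsRiemannianManifold 𝓘(ℝ, E) M]

variable {D : ℝ} {v : UT E M}

/-- the first variation of the energy density of the push-offs along `Y` in the direction of the
translates of `Z` -/
def mu (e : ∀ x : M, TangentSpace 𝓘(ℝ, E) x → M) (v : UT E M) (Y Z : ℝ → E) (t : ℝ) : ℝ :=
  deriv (fun b : ℝ => ip (po2 e v Y (b, t)) (vl (fun s => po2 e v Y (b, s)) t : E)
    (dE e (gm e (v, t)) (b • Y t) (Z t))) 0

/-- the Wronskian -/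
def wr (e : ∀ x : M, TangentSpace 𝓘(ℝ, E) x → M) (v : UT E M) (Y Z : ℝ → E) (t : ℝ) : ℝ :=
  mu e v Y Z t - mu e v Z Y t

/-- the exponential map on a plane in one tangent space -/
def ex2 (e : ∀ x : M, TangentSpace 𝓘(ℝ, E) x → M) (p : M) (z y : E) (s : ℝ × ℝ) : M :=
  e p (s.1 • z + s.2 • y : E)

theorem s2_ex2 (F : Facts e) (p : M) (z y : E) (s : ℝ × ℝ) : S2 (E := E) (ex2 e p z y) s := by
  refine Eventually.of_forall fun s => ?_
  have hc : ∀ a : E, SmV (fun _ : ℝ × ℝ => p) (fun _ => (a : TangentSpace 𝓘(ℝ, E) p)) s := by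
    intro a
    have h : ContMDiffAt 𝓘(ℝ, ℝ × ℝ) 𝓘(ℝ, E).tangent ∞ (fun _ : ℝ × ℝ => tb p a) s :=
      contMDiffAt_const
    exact h
  have h1 := SmV.smul (contDiffAt_fst (p := s)) (hc z)
  have h2 := SmV.smul (contDiffAt_snd (p := s)) (hc y)
  exact (h1.add h2).exp F.isExp

theorem ex2_zero (F : Facts e) (p : M) (z y : E) : ex2 e p z y (0, 0) = p := by
  unfold ex2
  have h : ((0 : ℝ) • z + (0 : ℝ) • y : E) = 0 := by simp
  change e p ((0 : ℝ) • z + (0 : ℝ) • y : E) = p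
  rw [h]
  exact F.isExp.map_zero _

theorem vl_ex2 (F : Facts e) (p : M) (z y : E) (b : ℝ) :
    (vl (fun a => ex2 e p z y (a, b)) 0 : E) = dE e p (b • y) z := by
  let z' : TangentSpace 𝓘(ℝ, E) p := z
  let y' : TangentSpace 𝓘(ℝ, E) p := y
  have hc : HasDerivAt (fun s : ℝ => s • z' + b • y') z' 0 := by
    simpa using ((hasDerivAt_id (0 : ℝ)).smul_const z').add_const (b • y')
  have h1 := mfderiv_exp_curve F.isExp p hc
  have h2 : (vl (fun a => ex2 e p z y (a, b)) 0 : E) = dE e p ((0 : ℝ) • z + b • y) z := h1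
  rw [h2, zero_smul, zero_add]

/-- the exponential map of `p` in the chart at `x₀` -/
def cx (e : ∀ x : M, TangentSpace 𝓘(ℝ, E) x → M) (x₀ p : M) (z y : E) (s : ℝ × ℝ) : E :=
  extChartAt 𝓘(ℝ, E) x₀ (ex2 e p z y s)

theorem sm_cx (F : Facts e) {x₀ p : M} (hp : p ∈ (extChartAt 𝓘(ℝ, E) x₀).source) (z y : E) :
    Sm (cx e x₀ p z y) (0, 0) :=
  (s2_ex2 F p z y (0, 0)).sm x₀ (by rw [ex2_zero F]; exact hp)

/-- the mixed derivative is symmetric -/
theorem cx_symm (F : Facts e) {x₀ p : M} (hp : p ∈ (extChartAt 𝓘(ℝ, E) x₀).source) (z y : E) :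
    d2 (d1 (cx e x₀ p z y)) (0, 0) = d2 (d1 (cx e x₀ p y z)) (0, 0) := by
  have h1 := sm_cx F hp z y
  have h2 := sm_cx F hp y z
  have hsw : ∀ a b, cx e x₀ p y z (a, b) = cx e x₀ p z y (b, a) := by
    intro a b
    unfold cx ex2
    have k : ((a : ℝ) • y + b • z : E) = b • z + a • y := add_comm _ _
    change extChartAt 𝓘(ℝ, E) x₀ (e p (a • y + b • z : E)) =
      extChartAt 𝓘(ℝ, E) x₀ (e p (b • z + a • y : E))
    rw [k]
  have hin : Tendsto (fun s : ℝ => ((0, s) : ℝ × ℝ)) (𝓝 0) (𝓝 (0, 0)) :=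
    (continuous_const.prodMk continuous_id).tendsto 0
  have hin' : Tendsto (fun s : ℝ => ((s, 0) : ℝ × ℝ)) (𝓝 0) (𝓝 (0, 0)) :=
    (continuous_id.prodMk continuous_const).tendsto 0
  have h3 : ∀ᶠ b in 𝓝 (0 : ℝ), d1 (cx e x₀ p y z) (0, b) = d2 (cx e x₀ p z y) (b, 0) := by
    filter_upwards [hin.eventually h2.eventually, hin'.eventually h1.eventually] with b e1 e2
    rw [← (hasDerivAt_d1 e1.differentiableAt).deriv, ← (hasDerivAt_d2 e2.differentiableAt).deriv]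
    congr 1
    funext s
    exact hsw s b
  have h4 : d2 (d1 (cx e x₀ p y z)) (0, 0) = d1 (d2 (cx e x₀ p z y)) (0, 0) := by
    rw [← (hasDerivAt_d2 (sm_d1 h2).differentiableAt).deriv,
      ← (hasDerivAt_d1 (sm_d2 h1).differentiableAt).deriv]
    exact Filter.EventuallyEq.deriv_eq h3
  rw [h4, d1_d2 h1]

/-- the first variation in a chart -/
theorem mu_chart (F : Facts e) {x₀ : M} {Y Z : ℝ → E} {t : ℝ}
    (ht : gm e (v, t) ∈ (extChartAt 𝓘(ℝ, E) x₀).source) (hY : FA e v Y t) :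
    mu e v Y Z t = fderiv ℝ (cm x₀) (WC.kap e x₀ v t) (yf e x₀ v Y t) (deriv (WC.kap e x₀ v) t)
        (yf e x₀ v Z t) +
      cm x₀ (WC.kap e x₀ v t) (deriv (yf e x₀ v Y) t) (yf e x₀ v Z t) +
      cm x₀ (WC.kap e x₀ v t) (deriv (WC.kap e x₀ v) t)
        (d2 (d1 (cx e x₀ (gm e (v, t)) (Z t) (Y t))) (0, 0)) := by
  set g := po2 e v Y with hg
  have hS : S2 (E := E) g (0, t) := s2_po2 F v 0 hY
  have hsrc : g (0, t) ∈ (extChartAt 𝓘(ℝ, E) x₀).source := by rw [hg, po2_zero F]; exact ht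
  set C : ℝ × ℝ → E := fun z => extChartAt 𝓘(ℝ, E) x₀ (g z) with hC
  have hCs : Sm C (0, t) := hS.sm x₀ hsrc
  have htar : C (0, t) ∈ (extChartAt 𝓘(ℝ, E) x₀).target :=
    (extChartAt 𝓘(ℝ, E) x₀).map_source hsrc
  have hCt : ∀ t, C (0, t) = WC.kap e x₀ v t := fun t => by
    change extChartAt 𝓘(ℝ, E) x₀ (g (0, t)) = _
    rw [hg, po2_zero F]
    rfl
  have hj1 := jet2 (c := C) (κ := WC.kap e x₀ v) hCs (Eventually.of_forall hCt)
  have hj2 := jet_line (c := C) (y := yf e x₀ v Y) (t := t) hCs (by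
    filter_upwards [src_gm F x₀ ht, eventually_eventually_nhds.2 hY] with t ht1 ht2
    exact d1_po2 F x₀ v ht1 ht2)
  set G := cx e x₀ (gm e (v, t)) (Z t) (Y t) with hG
  have hGs : Sm G (0, 0) := sm_cx F ht _ _
  have hSG := s2_ex2 F (gm e (v, t)) (Z t) (Y t) (0, 0)
  have hin : Tendsto (fun s : ℝ => ((s, t) : ℝ × ℝ)) (𝓝 0) (𝓝 (0, t)) :=
    (continuous_id.prodMk continuous_const).tendsto 0
  have hin0 : Tendsto (fun s : ℝ => ((0, s) : ℝ × ℝ)) (𝓝 0) (𝓝 (0, 0)) :=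
    (continuous_const.prodMk continuous_id).tendsto 0
  have hpt : ∀ b, ex2 e (gm e (v, t)) (Z t) (Y t) (0, b) = g (b, t) := by
    intro b
    change e (gm e (v, t)) ((0 : ℝ) • Z t + b • Y t : E) = e (gm e (v, t)) (b • Y t : E)
    have k : ((0 : ℝ) • Z t + b • Y t : E) = b • Y t := by rw [zero_smul, zero_add]
    rw [k]
  -- the function of `b` in the chart
  have hev : (fun b : ℝ => ip (g (b, t)) (vl (fun s => g (b, s)) t : E)
      (dE e (gm e (v, t)) (b • Y t) (Z t))) =ᶠ[𝓝 0] fun b =>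
      cm x₀ (C (b, t)) (d2 C (b, t)) (d1 G (0, b)) := by
    filter_upwards [hin.eventually hS.eventually, hin.eventually (hS.src x₀ hsrc),
      hin0.eventually hSG.eventually] with b e1 e2 e3
    have k1 := e1.d2 x₀ e2
    have e2' : ex2 e (gm e (v, t)) (Z t) (Y t) (0, b) ∈ (extChartAt 𝓘(ℝ, E) x₀).source := by
      rw [hpt]
      exact e2
    have k2 := e3.d1 x₀ e2'
    have k3 : d1 G (0, b) = (crd x₀ (g (b, t)) (dE e (gm e (v, t)) (b • Y t) (Z t) : E) : E) := by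
      refine k2.trans ?_
      exact crd_congr x₀ (hpt b) (vl_ex2 F _ _ _ b)
    have k4 : d2 C (b, t) = (crd x₀ (g (b, t)) (vl (fun s => g (b, s)) t : E) : E) := k1
    rw [k3, k4]
    exact (cm_ip x₀ e2 (vl (fun s => g (b, s)) t : E)
      (dE e (gm e (v, t)) (b • Y t) (Z t) : E)).symm
  have hA : Sm (cm x₀) (C (0, t)) := sm_cm x₀ htar
  have dL0 : HasDerivAt (fun b => C (b, t)) (d1 C (0, t)) 0 := hasDerivAt_d1 hCs.differentiableAt
  have dL1 : HasDerivAt (fun b => cm x₀ (C (b, t))) (fderiv ℝ (cm x₀) (C (0, t)) (d1 C (0, t))) 0 :=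
    HasFDerivAt.comp_hasDerivAt (l := cm x₀) (0 : ℝ) hA.differentiableAt.hasFDerivAt dL0
  have dL2 : HasDerivAt (fun b => d2 C (b, t)) (d1 (d2 C) (0, t)) 0 :=
    hasDerivAt_d1 (sm_d2 hCs).differentiableAt
  have dL3 : HasDerivAt (fun b => d1 G (0, b)) (d2 (d1 G) (0, 0)) 0 :=
    hasDerivAt_d2 (sm_d1 hGs).differentiableAt
  have key := ((dL1.clm_apply dL2).clm_apply dL3).congr_of_eventuallyEq hev
  have hG0 : d1 G (0, 0) = yf e x₀ v Z t := by
    have k2 := hSG.d1 x₀ (by rw [ex2_zero F]; exact ht)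
    refine k2.trans ?_
    refine crd_congr x₀ (ex2_zero F _ _ _) ?_
    refine (vl_ex2 F _ _ _ 0).trans ?_
    rw [zero_smul]
    exact dE_zero_base F.isExp _ _
  have hval : mu e v Y Z t = _ := key.deriv
  rw [hval, hj1.1, hj1.2.1, hj2.1, hj2.2.1, hG0]
  simp only [add_apply]

/-- the Wronskian in a chart -/
theorem wr_chart (F : Facts e) {x₀ : M} {Y Z : ℝ → E} {t : ℝ}
    (ht : gm e (v, t) ∈ (extChartAt 𝓘(ℝ, E) x₀).source) (hY : FA e v Y t) (hZ : FA e v Z t) :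
    wr e v Y Z t = fderiv ℝ (cm x₀) (WC.kap e x₀ v t) (yf e x₀ v Y t)
        (deriv (WC.kap e x₀ v) t) (yf e x₀ v Z t) -
      fderiv ℝ (cm x₀) (WC.kap e x₀ v t) (yf e x₀ v Z t)
        (deriv (WC.kap e x₀ v) t) (yf e x₀ v Y t) +
      (cm x₀ (WC.kap e x₀ v t) (deriv (yf e x₀ v Y) t) (yf e x₀ v Z t) -
        cm x₀ (WC.kap e x₀ v t) (deriv (yf e x₀ v Z) t) (yf e x₀ v Y t)) := by
  unfold wr
  rw [mu_chart F ht hY, mu_chart F ht hZ, cx_symm F ht (Z t) (Y t)]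
  ring

theorem sm_kap (F : Facts e) {x₀ : M} {t : ℝ}
    (ht : gm e (v, t) ∈ (extChartAt 𝓘(ℝ, E) x₀).source) : Sm (WC.kap e x₀ v) t := by
  have h0 : FA e v (fun _ => 0) t := by
    have h := (Fld.zero (E := E) (M := M)).fa F v t
    exact h
  filter_upwards [h0, src_gm F x₀ ht] with s h1 h2
  exact contDiffAt_chart x₀ h2 h1.base

/-- the derivative of the Wronskian at the time zero -/
theorem wr_deriv0 (F : Facts e) {Y Z : ℝ → E} {x₀ : M}
    (hx : foot v ∈ (extChartAt 𝓘(ℝ, E) x₀).source) (hY : FA e v Y 0) (hZ : FA e v Z 0)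
    {δ η : E} (h1 : JE e x₀ v Y δ) (h2 : JE e x₀ v Z η) :
    HasDerivAt (wr e v Y Z) (ip (foot v) δ (Z 0) - ip (foot v) η (Y 0)) 0 := by
  have ht : gm e (v, 0) ∈ (extChartAt 𝓘(ℝ, E) x₀).source := src_zero F hx
  have htar : WC.kap e x₀ v 0 ∈ (extChartAt 𝓘(ℝ, E) x₀).target :=
    (extChartAt 𝓘(ℝ, E) x₀).map_source ht
  have k1 := chart_wronskian (A := cm x₀) (k := WC.kap e x₀ v) (y := yf e x₀ v Y)
    (z := yf e x₀ v Z) (t := 0) (sm_cm x₀ htar) (cm_symm x₀ htar) (sm_kap F ht) (sm_yf F hY ht)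
    (sm_yf F hZ ht) h1 h2
  have k2 : wr e v Y Z =ᶠ[𝓝 0] fun t => fderiv ℝ (cm x₀) (WC.kap e x₀ v t) (yf e x₀ v Y t)
        (deriv (WC.kap e x₀ v) t) (yf e x₀ v Z t) -
      fderiv ℝ (cm x₀) (WC.kap e x₀ v t) (yf e x₀ v Z t)
        (deriv (WC.kap e x₀ v) t) (yf e x₀ v Y t) +
      (cm x₀ (WC.kap e x₀ v t) (deriv (yf e x₀ v Y) t) (yf e x₀ v Z t) -
        cm x₀ (WC.kap e x₀ v t) (deriv (yf e x₀ v Z) t) (yf e x₀ v Y t)) := by
    filter_upwards [src_gm F x₀ ht, eventually_eventually_nhds.2 hY,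
      eventually_eventually_nhds.2 hZ] with t e1 e2 e3
    exact wr_chart F e1 e2 e3
  have k3 := k1.congr_of_eventuallyEq k2
  have e0 : WC.kap e x₀ v 0 = extChartAt 𝓘(ℝ, E) x₀ (foot v) := by
    unfold WC.kap
    rw [gm_zero F]
  have e1 : ∀ X : ℝ → E, yf e x₀ v X 0 = (crd x₀ (foot v) (X 0) : E) := fun X =>
    crd_congr x₀ (gm_zero F v) rfl
  have e2 : cm x₀ (WC.kap e x₀ v 0) (crd x₀ (foot v) δ : E) (yf e x₀ v Z 0) =
      ip (foot v) δ (Z 0) := by
    rw [e0, e1]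
    exact cm_ip x₀ hx δ (Z 0)
  have e3 : cm x₀ (WC.kap e x₀ v 0) (crd x₀ (foot v) η : E) (yf e x₀ v Y 0) =
      ip (foot v) η (Y 0) := by
    rw [e0, e1]
    exact cm_ip x₀ hx η (Y 0)
  rw [e2, e3] at k3
  exact k3

/-! ### shift of the time -/

theorem po2_shift' (F : Facts e) (Y : ℝ → E) (t b s : ℝ) :
    po2 e (phi F (v, t)) (fun r => Y (t + r)) (b, s) = po2 e v Y (b, t + s) := by
  rw [po2_shift F]
  change po2 e v Y ((0 : ℝ) + b, t + s) = _
  rw [zero_add]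

theorem mu_shift (F : Facts e) {Y : ℝ → E} (hY : ∀ t, FA e v Y t) (Z : ℝ → E) (t s : ℝ) :
    mu e (phi F (v, t)) (fun r => Y (t + r)) (fun r => Z (t + r)) s = mu e v Y Z (t + s) := by
  unfold mu
  congr 1
  funext b
  have h1 : (fun r => po2 e (phi F (v, t)) (fun r => Y (t + r)) (b, r)) =
      fun r => po2 e v Y (b, t + r) := funext fun r => po2_shift' F Y t b r
  have h2 : (vl (fun r => po2 e (phi F (v, t)) (fun r => Y (t + r)) (b, r)) s : E) =
      vl (fun r => po2 e v Y (b, r)) (t + s) := by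
    rw [h1]
    exact vl_shift' (g := fun r => po2 e v Y (b, r)) (fun s => cm_line2 F hY b s) t s
  have h3 : ∀ (x y : M) (a a' c c' : E), x = y → a = a' → c = c' →
      dE e x a c = dE e y a' c' := by
    rintro x y a a' c c' rfl rfl rfl
    rfl
  exact ip_congr3' (po2_shift' F Y t b s) h2 (h3 _ _ _ _ _ _ (gm_phi F v t s) rfl rfl)

theorem wr_shift (F : Facts e) {Y Z : ℝ → E} (hY : ∀ t, FA e v Y t) (hZ : ∀ t, FA e v Z t)
    (t s : ℝ) : wr e (phi F (v, t)) (fun r => Y (t + r)) (fun r => Z (t + r)) s =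
      wr e v Y Z (t + s) := by
  unfold wr
  rw [mu_shift F hY, mu_shift F hZ]

/-- the derivative of the Wronskian -/
theorem wr_deriv (F : Facts e) {Y Z : ℝ → E} (hY : ∀ t, FA e v Y t) (hZ : ∀ t, FA e v Z t)
    (t : ℝ) {δ η : E}
    (h1 : JE e (foot (phi F (v, t))) (phi F (v, t)) (fun r => Y (t + r)) δ)
    (h2 : JE e (foot (phi F (v, t))) (phi F (v, t)) (fun r => Z (t + r)) η) :
    HasDerivAt (wr e v Y Z) (ip (gm e (v, t)) δ (Z t) - ip (gm e (v, t)) η (Y t)) t := by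
  have k1 := wr_deriv0 F (v := phi F (v, t)) (mem_extChartAt_source _) (fa_shift F hY t 0)
    (fa_shift F hZ t 0) h1 h2
  have k2 : wr e (phi F (v, t)) (fun r => Y (t + r)) (fun r => Z (t + r)) =
      fun s => wr e v Y Z (t + s) := funext fun s => wr_shift F hY hZ t s
  rw [k2] at k1
  rw [add_zero] at k1
  have k3 : HasDerivAt (fun s : ℝ => s - t) 1 t := (hasDerivAt_id t).sub_const t
  have k4 : HasDerivAt (fun s => wr e v Y Z (t + s))
      (ip (foot (phi F (v, t))) δ (Z t) - ip (foot (phi F (v, t))) η (Y t)) (t - t) := by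
    rw [sub_self]
    exact k1
  have k5 := HasDerivAt.comp (h₂ := fun s => wr e v Y Z (t + s)) (h := fun s : ℝ => s - t) t k4 k3
  have k6 : ((fun s => wr e v Y Z (t + s)) ∘ fun s : ℝ => s - t) = wr e v Y Z := by
    funext s
    simp
  rw [k6, mul_one] at k5
  exact k5

/-- **Green's identity** -/
theorem green (F : Facts e) {T : ℝ} (hT : phi F (v, T) = v) {Y Z : ℝ → E}
    (hY : ∀ t, FA e v Y t) (hZ : ∀ t, FA e v Z t) (pY : ∀ t, Y (t + T) = Y t)
    (pZ : ∀ t, Z (t + T) = Z t) {δ η : ℝ → E}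
    (h1 : ∀ t, JE e (foot (phi F (v, t))) (phi F (v, t)) (fun r => Y (t + r)) (δ t))
    (h2 : ∀ t, JE e (foot (phi F (v, t))) (phi F (v, t)) (fun r => Z (t + r)) (η t))
    (c1 : Continuous fun t => ip (gm e (v, t)) (δ t) (Z t))
    (c2 : Continuous fun t => ip (gm e (v, t)) (η t) (Y t)) :
    ∫ t in (0 : ℝ)..T, ip (gm e (v, t)) (δ t) (Z t) =
      ∫ t in (0 : ℝ)..T, ip (gm e (v, t)) (η t) (Y t) := by
  have k1 := intervalIntegral.integral_eq_sub_of_hasDerivAt (a := 0) (b := T)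
    (fun t _ => wr_deriv F hY hZ t (h1 t) (h2 t)) ((c1.sub c2).intervalIntegrable _ _)
  have k2 : wr e v Y Z T = wr e v Y Z 0 := by
    have k := wr_shift F hY hZ T 0
    rw [add_zero, hT] at k
    rw [← k]
    congr 1
    · funext r
      rw [add_comm, pY]
    · funext r
      rw [add_comm, pZ]
  rw [k2, sub_self, intervalIntegral.integral_sub (c1.intervalIntegrable _ _)
    (c2.intervalIntegrable _ _)] at k1
  linarith

end

end Vale.Agent.P231.S3E2
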