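import Vale.Agent.P231.S2N.Jac

/-!
# P231, stage 3, S3-A: the Wronskian in a chart
-/

set_option maxSynthPendingDepth 3
set_option linter.unusedSectionVars false
set_option linter.unusedVariables false

open Set Filter Module Topology MeasureTheory
open scoped ContDiff

namespace Vale.Agent.P231.S3E2

noncomputable section

open Vale.Agent.P231.Fm Vale.Agent.P231.WC Vale.Agent.P231.S2N

variable {E : Type*} [NormedAddCommGroup E] [NormedSpace ℝ E]

theorem sm_hasDerivAt {G : Type*} [NormedAddCommGroup G] [NormedSpace ℝ G] {f : ℝ → G} {t : ℝ}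
    (h : Sm f t) : HasDerivAt f (deriv f t) t := h.differentiableAt.hasDerivAt

/-- the linearised geodesic operator -/
theorem fderiv_Qf_full {A : E → E →L[ℝ] E →L[ℝ] ℝ} {x p q b y p' q' : E} (hA : Sm A x) :
    fderiv ℝ (Qf A) (x, p, q, b) (y, p', q', 0) =
      fderiv ℝ (fderiv ℝ A) x y p p b + fderiv ℝ A x p' p b + fderiv ℝ A x p p' b +
        fderiv ℝ A x y q b + A x q' b -
        (1 / 2 : ℝ) * (fderiv ℝ (fderiv ℝ A) x y b p p + fderiv ℝ A x b p' p +
          fderiv ℝ A x b p p') := by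
  have hl : ∀ a c : E, HasDerivAt (fun s : ℝ => a + s • c) c 0 := fun a c => by
    have k := ((hasDerivAt_id (0 : ℝ)).smul_const c).const_add a
    simpa using k
  have hx := hl x y
  have hp := hl p p'
  have hq := hl q q'
  have hb := hasDerivAt_const (0 : ℝ) b
  have hA1 : HasDerivAt (fun s : ℝ => A (x + s • y)) (fderiv ℝ A x y) 0 := by
    have k : HasFDerivAt A (fderiv ℝ A x) (x + (0 : ℝ) • y) := by
      rw [zero_smul, add_zero]
      exact hA.differentiableAt.hasFDerivAt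
    exact k.comp_hasDerivAt (0 : ℝ) hx
  have hA2 : HasDerivAt (fun s : ℝ => fderiv ℝ A (x + s • y)) (fderiv ℝ (fderiv ℝ A) x y) 0 := by
    have k : HasFDerivAt (fderiv ℝ A) (fderiv ℝ (fderiv ℝ A) x) (x + (0 : ℝ) • y) := by
      rw [zero_smul, add_zero]
      exact hA.fderiv.differentiableAt.hasFDerivAt
    exact k.comp_hasDerivAt (0 : ℝ) hx
  have h1 : HasDerivAt (fun s : ℝ => ((x + s • y, p + s • p', q + s • q', b) : E × E × E × E))
      (y, p', q', 0) 0 := hx.prodMk (hp.prodMk (hq.prodMk hb))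
  have h2 : HasFDerivAt (Qf A) (fderiv ℝ (Qf A) (x, p, q, b))
      (x + (0 : ℝ) • y, p + (0 : ℝ) • p', q + (0 : ℝ) • q', b) := by
    simp only [zero_smul, add_zero]
    exact (sm_Qf (y := (x, p, q, b)) hA).differentiableAt.hasFDerivAt
  have h3 := h2.comp_hasDerivAt (0 : ℝ) h1
  have k1 := ((hA2.clm_apply hp).clm_apply hp).clm_apply hb
  have k2 := (hA1.clm_apply hq).clm_apply hb
  have k3 := (((hA2.clm_apply hb).clm_apply hp).clm_apply hp).const_mul (1 / 2 : ℝ)
  have h4 := (k1.add k2).sub k3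
  have h5 : (Qf A ∘ fun s : ℝ => ((x + s • y, p + s • p', q + s • q', b) : E × E × E × E)) =
      fun s : ℝ => fderiv ℝ A (x + s • y) (p + s • p') (p + s • p') b +
        A (x + s • y) (q + s • q') b -
        (1 / 2 : ℝ) * fderiv ℝ A (x + s • y) b (p + s • p') (p + s • p') := rfl
  rw [h5] at h3
  have h6 := h3.unique h4
  rw [h6]
  simp only [zero_smul, add_zero, map_zero, add_apply]
  ring

theorem symm_fderiv {A : E → E →L[ℝ] E →L[ℝ] ℝ} {x : E} (hA : Sm A x)
    (hsymm : ∀ᶠ x in 𝓝 x, ∀ a b, A x a b = A x b a) (c a b : E) :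
    fderiv ℝ A x c a b = fderiv ℝ A x c b a := by
  have hl : HasDerivAt (fun s : ℝ => x + s • c) c 0 := by
    have k := ((hasDerivAt_id (0 : ℝ)).smul_const c).const_add x
    simpa using k
  have hA1 : HasDerivAt (fun s : ℝ => A (x + s • c)) (fderiv ℝ A x c) 0 := by
    have k : HasFDerivAt A (fderiv ℝ A x) (x + (0 : ℝ) • c) := by
      rw [zero_smul, add_zero]
      exact hA.differentiableAt.hasFDerivAt
    exact k.comp_hasDerivAt (0 : ℝ) hl
  have h1 := (hA1.clm_apply (hasDerivAt_const (0 : ℝ) a)).clm_apply (hasDerivAt_const (0 : ℝ) b)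
  have h2 := (hA1.clm_apply (hasDerivAt_const (0 : ℝ) b)).clm_apply (hasDerivAt_const (0 : ℝ) a)
  have h3 : (fun s : ℝ => A (x + s • c) a b) =ᶠ[𝓝 0] fun s => A (x + s • c) b a := by
    have k : Tendsto (fun s : ℝ => x + s • c) (𝓝 0) (𝓝 x) := by
      have k2 := hl.continuousAt.tendsto
      simpa using k2
    filter_upwards [k.eventually hsymm] with s hs using hs a b
  have h4 := (h2.congr_of_eventuallyEq h3).unique h1
  simpa using h4.symm

theorem symm_fderiv2 {A : E → E →L[ℝ] E →L[ℝ] ℝ} {x : E} (hA : Sm A x) (a b : E) :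
    fderiv ℝ (fderiv ℝ A) x a b = fderiv ℝ (fderiv ℝ A) x b a := by
  have h2 : IsSymmSndFDerivAt ℝ A x :=
    (hA.contDiffAt).isSymmSndFDerivAt (by simpa using two_le_infty)
  exact h2.eq _ _

/-- **the derivative of the Wronskian in a chart** -/
theorem chart_wronskian [FiniteDimensional ℝ E] {A : E → E →L[ℝ] E →L[ℝ] ℝ} {k y z : ℝ → E} {t : ℝ} (hA : Sm A (k t))
    (hsymm : ∀ᶠ x in 𝓝 (k t), ∀ a b, A x a b = A x b a)
    (hk : Sm k t) (hy : Sm y t) (hz : Sm z t) {δ η : E}
    (h1 : ∀ b, fderiv ℝ (Qf A) (k t, deriv k t, deriv (deriv k) t, b)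
      (y t, deriv y t, deriv (deriv y) t, 0) = A (k t) δ b)
    (h2 : ∀ b, fderiv ℝ (Qf A) (k t, deriv k t, deriv (deriv k) t, b)
      (z t, deriv z t, deriv (deriv z) t, 0) = A (k t) η b) :
    HasDerivAt (fun s => fderiv ℝ A (k s) (y s) (deriv k s) (z s) -
        fderiv ℝ A (k s) (z s) (deriv k s) (y s) +
        (A (k s) (deriv y s) (z s) - A (k s) (deriv z s) (y s)))
      (A (k t) δ (z t) - A (k t) η (y t)) t := by
  have dk := sm_hasDerivAt hk
  have dk' := sm_hasDerivAt (sm_deriv hk)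
  have dy := sm_hasDerivAt hy
  have dy' := sm_hasDerivAt (sm_deriv hy)
  have dz := sm_hasDerivAt hz
  have dz' := sm_hasDerivAt (sm_deriv hz)
  have dA : HasDerivAt (fun s => A (k s)) (fderiv ℝ A (k t) (deriv k t)) t :=
    hA.differentiableAt.hasFDerivAt.comp_hasDerivAt t dk
  have dA' : HasDerivAt (fun s => fderiv ℝ A (k s)) (fderiv ℝ (fderiv ℝ A) (k t) (deriv k t)) t :=
    hA.fderiv.differentiableAt.hasFDerivAt.comp_hasDerivAt t dk
  have q1 := ((dA'.clm_apply dy).clm_apply dk').clm_apply dz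
  have q2 := ((dA'.clm_apply dz).clm_apply dk').clm_apply dy
  have q3 := (dA.clm_apply dy').clm_apply dz
  have q4 := (dA.clm_apply dz').clm_apply dy
  have q5 := (q1.sub q2).add (q3.sub q4)
  refine q5.congr_deriv ?_
  rw [← h1 (z t), ← h2 (y t), fderiv_Qf_full hA, fderiv_Qf_full hA,
    symm_fderiv2 hA (deriv k t) (y t), symm_fderiv2 hA (deriv k t) (z t),
    symm_fderiv2 hA (z t) (y t)]
  simp only [add_apply]
  have s1 := symm_fderiv hA hsymm (z t) (deriv y t) (deriv k t)
  have s2 := symm_fderiv hA hsymm (y t) (deriv z t) (deriv k t)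
  have s3 := hsymm.self_of_nhds (deriv z t) (deriv y t)
  rw [s1, s2, s3]
  ring

end

end Vale.Agent.P231.S3E2
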